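import Vale.Agent.P097.H970.Core

/-! # P097 / H970 : NS0 and NS1 (the leaf function avoids the slit) -/

set_option linter.all false

open scoped ContDiff Topology ComplexConjugate
open Filter Metric

namespace Vale.Agent.P097.H970

open Vale.Agent.P097 Vale.Agent.P097.LR

section iso

variable {x₁ : ℂ} {κ r : ℝ} {s₁ : ℂ} {Z : ℂ → ℂ → ℂ} {tI : ℂ → ℂ} {U : ℂ → ℂ → ℂ}

/-- `tI w = x₁ + O(w ^ 2)`. -/
lemma tI_bd (h : Iso x₁ κ r s₁ Z tI U) :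
    ∃ C δ : ℝ, 0 < C ∧ 0 < δ ∧ δ ≤ r ∧ ∀ w : ℂ, ‖w‖ < δ → ‖tI w - x₁‖ ≤ C * ‖w‖ ^ 2 := by
  have hc : ContinuousAt tI 0 :=
    (h.dI.differentiableAt (isOpen_ball.mem_nhds (mem_ball_self h.hr))).continuousAt
  obtain ⟨d, hd, hdc⟩ := Metric.continuousAt_iff.mp hc 1 one_pos
  set δ₁ : ℝ := min d r with hδ₁
  have hδ₁0 : 0 < δ₁ := lt_min hd h.hr
  have hδd : δ₁ ≤ d := min_le_left _ _
  have hδr : δ₁ ≤ r := min_le_right _ _
  have hb : ∀ w : ℂ, ‖w‖ < δ₁ → ‖tI w - x₁‖ ≤ 1 := by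
    intro w hw
    have := hdc (x := w) (by simpa using lt_of_lt_of_le hw hδd)
    rw [dist_eq_norm, h.I0] at this
    exact this.le
  obtain ⟨e1, e2⟩ := even_factor (f := fun w => tI w - x₁) hδ₁0
    ((h.dI.mono (ball_subset_ball hδr)).sub_const _)
    (fun z hz => by simp only [h.Iev z (lt_of_lt_of_le hz hδr)])
  refine ⟨(2 * 1 + 1) / (δ₁ ^ 2 / 2), δ₁ / 2, by positivity, by positivity, by linarith, ?_⟩
  intro w hw
  have hn : ‖w ^ 2‖ < δ₁ ^ 2 / 4 := by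
    rw [norm_pow]; nlinarith [norm_nonneg w]
  have := lip_of_bound (f := fun y => tI (sr y) - x₁) (δ := δ₁ ^ 2) (M := 1) (by positivity)
    (by norm_num) e1 (fun z hz => hb _ (by
      have := sr_mem hδ₁0 (y := z) (by simpa using hz)
      simpa using this)) hn (b := 0) (by rw [norm_zero]; positivity)
  have e3 : tI (sr (w ^ 2)) - x₁ = tI w - x₁ := by
    rcases e2 w with h1 | h1
    · exact h1
    · linarith
  have h0 : sr 0 = 0 := by unfold sr; simp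
  simp only [e3, h0, h.I0, sub_self, sub_zero, norm_pow] at this
  exact this

/-- Membership in the slit disc. -/
lemma mem_SB (h : Iso x₁ κ r s₁ Z tI U) {R : ℝ} {τ w : ℂ} (hτ : ‖τ‖ < κ) (hw : ‖w‖ < r)
    (hU : ‖U τ w - U 0 0‖ ≤ ‖U 0 0‖ / 2) (hR : ‖τ ^ 2 - w ^ 2 / 4‖ * (2 * ‖U 0 0‖) < R)
    (hne : ∀ p : ℝ, 0 ≤ p → (τ ^ 2 - w ^ 2 / 4) * U τ w ≠ p * U 0 0) :
    Z (tI w + τ) w ∈ SB s₁ (U 0 0) R := by
  have e : Z (tI w + τ) w - s₁ = (τ ^ 2 - w ^ 2 / 4) * U τ w := by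
    rw [h.loc τ w hτ hw]; ring
  refine ⟨?_, ?_⟩
  · rw [e, norm_mul]
    have h1 : ‖U τ w‖ ≤ 2 * ‖U 0 0‖ := by
      calc ‖U τ w‖ = ‖(U τ w - U 0 0) + U 0 0‖ := by ring_nf
        _ ≤ ‖U τ w - U 0 0‖ + ‖U 0 0‖ := norm_add_le _ _
        _ ≤ 2 * ‖U 0 0‖ := by linarith [norm_nonneg (U 0 0)]
    calc _ ≤ ‖τ ^ 2 - w ^ 2 / 4‖ * (2 * ‖U 0 0‖) := mul_le_mul_of_nonneg_left h1 (norm_nonneg _)
      _ < R := hR
  · intro p hp
    rw [e]
    exact hne p hp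

lemma r1 {β q ν e : ℝ} (he : 0 < e) (he1 : e ≤ 1) (h1 : |q| / 2 + e / 2 * ν ≤ β)
    (hq : |q| ≤ ν) (hβ : 0 < β) : e * β ≤ 2 * β - |q| ∧ |q| ≤ 2 * β := by
  have hq0 := abs_nonneg q
  have h2 : e * |q| ≤ e * ν := mul_le_mul_of_nonneg_left hq he.le
  have h3 : (1 + e) * (2 * β - |q|) ≥ 2 * (β * e) := by nlinarith
  have h4 : |q| ≤ 2 * β := by nlinarith [mul_nonneg he.le (hq0.trans hq)]
  have h5 : 0 ≤ 2 * β - |q| := by linarith
  have h6 : (1 + e) * (2 * β - |q|) ≤ 2 * (2 * β - |q|) :=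
    mul_le_mul_of_nonneg_right (by linarith) h5
  exact ⟨by linarith, h4⟩

lemma r2 {a β p q e : ℝ} (he : 0 < e) (hβ : 0 < β) (s1 : e * β ≤ 2 * β - |q|)
    (hre : 0 ≤ a ^ 2 - β ^ 2 - (p ^ 2 - q ^ 2) / 4) : e / 2 * β ^ 2 ≤ a ^ 2 := by
  have h1 : (e * β / 2) * β ≤ (β - |q| / 2) * (β + |q| / 2) := by
    apply mul_le_mul (by linarith) (by linarith [abs_nonneg q]) hβ.le
    have : 0 < e * β := by positivity
    linarith
  have h2 : (β - |q| / 2) * (β + |q| / 2) = β ^ 2 - q ^ 2 / 4 := by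
    rw [← sq_abs q]; ring
  have h3 := sq_nonneg p
  linarith

lemma r3 {a β p q : ℝ} (hβ : 0 < β) (hq2 : |q| ≤ 2 * β)
    (hre : 0 ≤ a ^ 2 - β ^ 2 - (p ^ 2 - q ^ 2) / 4) : |p| ≤ 2 * |a| := by
  have h2 : |q| ^ 2 ≤ (2 * β) ^ 2 := pow_le_pow_left₀ (abs_nonneg q) hq2 2
  rw [sq_abs] at h2
  have h3 : |p| ^ 2 ≤ (2 * |a|) ^ 2 := by
    rw [mul_pow, sq_abs, sq_abs]; linarith
  exact le_of_sq_le_sq h3 (by positivity)

lemma r4 {a β p q e : ℝ} (hβ : 0 < β) (s1 : e * β ≤ 2 * β - |q|) (s3 : |p| ≤ 2 * |a|) :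
    e * |a| * β ≤ |2 * a * β + p * q / 2| := by
  have h2 : |2 * a * β| - |p * q / 2| ≤ |2 * a * β + p * q / 2| := by
    have := abs_sub_abs_le_abs_sub (2 * a * β) (-(p * q / 2))
    rw [abs_neg, sub_neg_eq_add] at this
    exact this
  have e1 : |2 * a * β| = 2 * |a| * β := by
    rw [abs_mul, abs_mul, abs_of_pos hβ]; norm_num
  have e2 : |p * q / 2| = |p| * |q| / 2 := by
    rw [abs_div, abs_mul]; norm_num
  rw [e1, e2] at h2
  have h3 : |p| * |q| ≤ 2 * |a| * |q| := mul_le_mul_of_nonneg_right s3 (abs_nonneg q)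
  have h4 : e * β * |a| ≤ (2 * β - |q|) * |a| := mul_le_mul_of_nonneg_right s1 (abs_nonneg a)
  have e3 : (2 * β - |q|) * |a| = 2 * |a| * β - |a| * |q| := by ring
  have e4 : e * β * |a| = e * |a| * β := by ring
  have e5 : 2 * |a| * |q| = 2 * (|a| * |q|) := by ring
  rw [e3, e4] at h4
  rw [e5] at h3
  linarith

lemma r6 {a β ν e N : ℝ} (he : 0 < e) (he1 : e ≤ 1) (hν : 0 ≤ ν) (heν : e * ν ≤ 2 * β)
    (s2 : e / 2 * β ^ 2 ≤ a ^ 2)
    (hN : N ≤ a ^ 2 + β ^ 2 + ν ^ 2 / 4) : e ^ 3 * N ≤ 5 * a ^ 2 := by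
  have s5 : e ^ 2 * ν ^ 2 ≤ 4 * β ^ 2 := by
    have : (e * ν) ^ 2 ≤ (2 * β) ^ 2 := pow_le_pow_left₀ (by positivity) heν 2
    rw [mul_pow, mul_pow] at this
    linarith
  have e3 : 0 < e ^ 3 := by positivity
  have h2 : e ^ 3 * N ≤ e ^ 3 * (a ^ 2 + β ^ 2 + ν ^ 2 / 4) := mul_le_mul_of_nonneg_left hN e3.le
  have h3 : e ^ 3 ≤ 1 := pow_le_one₀ he.le he1
  have h4 : e ^ 3 * a ^ 2 ≤ 1 * a ^ 2 := mul_le_mul_of_nonneg_right h3 (sq_nonneg a)
  have h5 : e ^ 3 * β ^ 2 ≤ e * β ^ 2 := by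
    have : e ^ 3 ≤ e := by
      calc e ^ 3 = e * e ^ 2 := by ring
        _ ≤ e * 1 := mul_le_mul_of_nonneg_left (pow_le_one₀ he.le he1) he.le
        _ = e := mul_one e
    exact mul_le_mul_of_nonneg_right this (sq_nonneg β)
  have h6 : e ^ 3 * ν ^ 2 ≤ 4 * (e * β ^ 2) := by
    calc e ^ 3 * ν ^ 2 = e * (e ^ 2 * ν ^ 2) := by ring
      _ ≤ e * (4 * β ^ 2) := mul_le_mul_of_nonneg_left s5 he.le
      _ = 4 * (e * β ^ 2) := by ring
  have h7 : e ^ 3 * (a ^ 2 + β ^ 2 + ν ^ 2 / 4) = e ^ 3 * a ^ 2 + e ^ 3 * β ^ 2 +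
      e ^ 3 * ν ^ 2 / 4 := by ring
  rw [h7] at h2
  linarith

lemma ns0_real {a β p q ν e K C N : ℝ} (he : 0 < e) (he1 : e ≤ 1) (hK : 0 < K) (hC : 0 < C)
    (hβ : 0 < β) (h1 : |q| / 2 + e / 2 * ν ≤ β) (hp : |p| ≤ ν) (hq : |q| ≤ ν)
    (hre : 0 ≤ a ^ 2 - β ^ 2 - (p ^ 2 - q ^ 2) / 4) (ha1 : |a| ≤ 1)
    (hN : N ≤ a ^ 2 + β ^ 2 + ν ^ 2 / 4) (hN0 : 0 ≤ N)
    (him : |2 * a * β + p * q / 2| * K ≤ N * (C * (|a| * β + |q|)))
    (hsm : 16 * C * |a| < e ^ 4 * K) : False := by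
  have hν : 0 ≤ ν := (abs_nonneg p).trans hp
  have hq0 := abs_nonneg q
  have ha0 := abs_nonneg a
  obtain ⟨s1, hq2⟩ := r1 he he1 h1 hq hβ
  have s2 := r2 he hβ s1 hre
  have s3 := r3 hβ hq2 hre
  have s4 := r4 hβ s1 s3
  have s6 := r6 he he1 hν (by linarith) s2 hN
  clear h1 hp hq hre hN
  have s7 : |a| * β + |q| ≤ 3 * β := by
    have : |a| * β ≤ 1 * β := mul_le_mul_of_nonneg_right ha1 hβ.le
    linarith
  have s8 : e * |a| * K ≤ 3 * N * C := by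
    have h2 : (e * |a| * β) * K ≤ N * (C * (3 * β)) := by
      calc (e * |a| * β) * K ≤ |2 * a * β + p * q / 2| * K := mul_le_mul_of_nonneg_right s4 hK.le
        _ ≤ N * (C * (|a| * β + |q|)) := him
        _ ≤ N * (C * (3 * β)) :=
          mul_le_mul_of_nonneg_left (mul_le_mul_of_nonneg_left s7 hC.le) hN0
    have h3 : (e * |a| * K) * β ≤ (3 * N * C) * β := by
      calc (e * |a| * K) * β = (e * |a| * β) * K := by ring
        _ ≤ _ := h2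
        _ = (3 * N * C) * β := by ring
    exact le_of_mul_le_mul_right h3 hβ
  have ha_pos : 0 < |a| := by
    by_contra hneg
    have h2 : |a| = 0 := le_antisymm (not_lt.mp hneg) ha0
    rw [abs_eq_zero] at h2
    rw [h2] at s2
    have : 0 < e / 2 * β ^ 2 := by positivity
    norm_num at s2
    linarith
  have s9 : e ^ 4 * K * |a| ≤ 15 * C * |a| * |a| := by
    have h2 : e ^ 3 * (e * |a| * K) ≤ e ^ 3 * (3 * N * C) :=
      mul_le_mul_of_nonneg_left s8 (by positivity)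
    have h3 : (e ^ 3 * N) * (3 * C) ≤ (5 * a ^ 2) * (3 * C) :=
      mul_le_mul_of_nonneg_right s6 (by positivity)
    calc e ^ 4 * K * |a| = e ^ 3 * (e * |a| * K) := by ring
      _ ≤ e ^ 3 * (3 * N * C) := h2
      _ = (e ^ 3 * N) * (3 * C) := by ring
      _ ≤ (5 * a ^ 2) * (3 * C) := h3
      _ = 15 * C * |a| * |a| := by rw [← sq_abs a]; ring
  have s10 : e ^ 4 * K ≤ 15 * C * |a| := le_of_mul_le_mul_right s9 ha_pos
  have s11 : 0 < C * |a| := by positivity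
  linarith

/-- Choice of the radius in `NS0`. -/
lemma choose_eta {δ k C R e' : ℝ} (hδ : 0 < δ) (hk : 0 < k) (hC : 0 < C) (hR : 0 < R)
    (he' : 0 < e') : ∃ η : ℝ, 0 < η ∧ 2 * η ≤ δ ∧ 2 * η ≤ 1 ∧
      2 * η * (16 * C + 1) ≤ e' ^ 4 * (k / 2) ∧ 2 * η * (6 * k + 1) ≤ R := by
  refine ⟨min (min δ 1) (min (e' ^ 4 * (k / 2) / (16 * C + 1)) (R / (6 * k + 1))) / 2,
    by positivity, ?_, ?_, ?_, ?_⟩
  · linarith [(min_le_left (min δ 1) (min (e' ^ 4 * (k / 2) / (16 * C + 1))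
      (R / (6 * k + 1)))).trans (min_le_left δ 1)]
  · linarith [(min_le_left (min δ 1) (min (e' ^ 4 * (k / 2) / (16 * C + 1))
      (R / (6 * k + 1)))).trans (min_le_right δ 1)]
  · rw [← le_div_iff₀ (by positivity)]
    linarith [(min_le_right (min δ 1) (min (e' ^ 4 * (k / 2) / (16 * C + 1))
      (R / (6 * k + 1)))).trans (min_le_left _ _)]
  · rw [← le_div_iff₀ (by positivity)]
    linarith [(min_le_right (min δ 1) (min (e' ^ 4 * (k / 2) / (16 * C + 1))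
      (R / (6 * k + 1)))).trans (min_le_right _ _)]

/-- Choice of `δ₀` in `NS0`. -/
lemma choose_delta {η δI CI e' : ℝ} (hη : 0 < η) (hδI : 0 < δI) (hCI : 0 < CI) (he' : 0 < e') :
    ∃ δ₀ : ℝ, 0 < δ₀ ∧ δ₀ ≤ η / 2 ∧ δ₀ ≤ δI ∧ δ₀ * (2 * CI + 1) ≤ e' ∧
      δ₀ * (2 * CI + 1) ≤ η := by
  refine ⟨min (min (η / 2) δI) (min (e' / (2 * CI + 1)) (η / (2 * CI + 1))), by positivity,
    (min_le_left _ _).trans (min_le_left _ _), (min_le_left _ _).trans (min_le_right _ _), ?_, ?_⟩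
  · rw [← le_div_iff₀ (by positivity)]
    exact (min_le_right _ _).trans (min_le_left _ _)
  · rw [← le_div_iff₀ (by positivity)]
    exact (min_le_right _ _).trans (min_le_right _ _)

theorem ns0 : NS0 := by
  intro x₁ κ r s₁ Z tI U h R e hR he
  obtain ⟨C, δ, hC, hδ, hδκ, hδr, hU⟩ := U_im h
  obtain ⟨CI, δI, hCI, hδI, hδIr, hI⟩ := tI_bd h
  have hk0 : 0 < ‖U 0 0‖ := norm_pos_iff.mpr h.U0
  set k : ℝ := ‖U 0 0‖ with hk
  -- reduce to `e ≤ 1`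
  obtain ⟨e', he'0, he'1, he'e⟩ : ∃ e' : ℝ, 0 < e' ∧ e' ≤ 1 ∧ e' ≤ e :=
    ⟨min e 1, lt_min he one_pos, min_le_right _ _, min_le_left _ _⟩
  obtain ⟨η, hη0, hηδ, hη1, hηC, hηR⟩ := choose_eta hδ hk0 hC hR he'0
  obtain ⟨δ₀, hδ₀0, d1, d2, d3, d4⟩ := choose_delta hη0 hδI hCI he'0
  refine ⟨δ₀, hδ₀0, ?_⟩
  intro t w ht hw him
  have hIw := hI w (lt_of_lt_of_le hw d2)
  have hw0 := norm_nonneg w
  have hIw2 : ‖tI w - x₁‖ ≤ e' / 2 * ‖w‖ := by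
    have h1 : CI * ‖w‖ ≤ e' / 2 := by
      have : CI * ‖w‖ ≤ CI * δ₀ := mul_le_mul_of_nonneg_left hw.le hCI.le
      nlinarith
    calc ‖tI w - x₁‖ ≤ CI * ‖w‖ ^ 2 := hIw
      _ = (CI * ‖w‖) * ‖w‖ := by ring
      _ ≤ e' / 2 * ‖w‖ := mul_le_mul_of_nonneg_right h1 hw0
  have hIw3 : ‖tI w - x₁‖ ≤ η / 2 := by
    have h1 : CI * ‖w‖ ≤ η / 2 := by
      have : CI * ‖w‖ ≤ CI * δ₀ := mul_le_mul_of_nonneg_left hw.le hCI.le
      nlinarith
    have h2 : ‖w‖ ≤ 1 := by linarith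
    calc ‖tI w - x₁‖ ≤ CI * ‖w‖ ^ 2 := hIw
      _ = (CI * ‖w‖) * ‖w‖ := by ring
      _ ≤ (η / 2) * 1 := mul_le_mul h1 h2 hw0 (by positivity)
      _ = η / 2 := mul_one _
  obtain ⟨τ, hτd⟩ : ∃ τ, τ = t - tI w := ⟨_, rfl⟩
  have ht' : t = tI w + τ := by rw [hτd]; ring
  have hτn : ‖τ‖ < η := by
    have : τ = (t - x₁) - (tI w - x₁) := by rw [hτd]; ring
    calc ‖τ‖ ≤ ‖t - x₁‖ + ‖tI w - x₁‖ := by rw [this]; exact norm_sub_le _ _
      _ < η := by linarith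
  have hwη : ‖w‖ < η := by linarith
  obtain ⟨hU1, hU2⟩ := hU τ w (by linarith) (by linarith)
  -- imaginary part of `τ`
  have hb : τ.im ≤ -(|w.im| / 2 + e' / 2 * ‖w‖) ∧ τ.im < 0 := by
    have h1 : |(tI w - x₁).im| ≤ e' / 2 * ‖w‖ := (Complex.abs_im_le_norm _).trans hIw2
    rw [Complex.sub_im] at h1
    have h2 := neg_abs_le ((tI w).im - x₁.im)
    have h3 : τ.im = t.im - (tI w).im := by rw [hτd]; simp
    have h4 : e' * ‖w‖ ≤ e * ‖w‖ := mul_le_mul_of_nonneg_right he'e hw0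
    have h5 := abs_nonneg w.im
    have h6 : 0 ≤ e' / 2 * ‖w‖ := by positivity
    constructor
    · linarith
    · linarith
  have hnA : ‖τ ^ 2 - w ^ 2 / 4‖ ≤ ‖τ‖ ^ 2 + ‖w‖ ^ 2 / 4 := by
    calc ‖τ ^ 2 - w ^ 2 / 4‖ ≤ ‖τ ^ 2‖ + ‖w ^ 2 / 4‖ := norm_sub_le _ _
      _ = ‖τ‖ ^ 2 + ‖w‖ ^ 2 / 4 := by
        rw [norm_div, norm_pow, norm_pow]; norm_num
  rw [ht']
  clear hIw hIw2 hIw3 ht him hI hU ht' hτd d1 d2 d3 d4
  apply mem_SB h (by linarith) (by linarith) hU1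
  · have h2 : ‖τ‖ ^ 2 ≤ η := by
      calc ‖τ‖ ^ 2 = ‖τ‖ * ‖τ‖ := by ring
        _ ≤ η * 1 := mul_le_mul hτn.le (by linarith) (norm_nonneg _) hη0.le
        _ = η := mul_one _
    have h3 : ‖w‖ ^ 2 ≤ η := by
      calc ‖w‖ ^ 2 = ‖w‖ * ‖w‖ := by ring
        _ ≤ η * 1 := mul_le_mul hwη.le (by linarith) (norm_nonneg _) hη0.le
        _ = η := mul_one _
    have h1 : ‖τ ^ 2 - w ^ 2 / 4‖ ≤ 2 * η := by linarith
    have h4 : 0 < η * k := by positivity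
    calc ‖τ ^ 2 - w ^ 2 / 4‖ * (2 * k) ≤ 2 * η * (2 * k) :=
          mul_le_mul_of_nonneg_right h1 (by positivity)
      _ < R := by nlinarith
  · intro p hp hslit
    obtain ⟨hre, himA⟩ := slit_im (U00_re h) h.U0 hU1 hp hslit
    have hA_im : (τ ^ 2 - w ^ 2 / 4).im = -(2 * τ.re * (-τ.im) + w.re * w.im / 2) := by
      have : (w ^ 2 / 4).im = w.re * w.im / 2 := by
        rw [show (w ^ 2 / 4 : ℂ) = w ^ 2 * ((1 / 4 : ℝ) : ℂ) by push_cast; ring,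
          Complex.im_mul_ofReal, pow_two, Complex.mul_im]; ring
      rw [Complex.sub_im, this, pow_two, Complex.mul_im]; ring
    have hA_re : (τ ^ 2 - w ^ 2 / 4).re = τ.re ^ 2 - (-τ.im) ^ 2 - (w.re ^ 2 - w.im ^ 2) / 4 := by
      have : (w ^ 2 / 4).re = (w.re ^ 2 - w.im ^ 2) / 4 := by
        rw [show (w ^ 2 / 4 : ℂ) = w ^ 2 * ((1 / 4 : ℝ) : ℂ) by push_cast; ring,
          Complex.re_mul_ofReal, pow_two, Complex.mul_re]; ring
      rw [Complex.sub_re, this, pow_two, Complex.mul_re]; ring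
    have hτsq : ‖τ‖ ^ 2 = τ.re ^ 2 + (-τ.im) ^ 2 := by
      rw [← Complex.normSq_eq_norm_sq, Complex.normSq_apply]; ring
    have habs : |τ.im| = -τ.im := abs_of_neg hb.2
    have hre_abs : |τ.re| ≤ ‖τ‖ := Complex.abs_re_le_norm _
    rw [hτsq] at hnA
    rw [hA_im, abs_neg] at himA
    rw [hA_re] at hre
    rw [habs] at hU2
    have himA' := himA.trans (mul_le_mul_of_nonneg_left hU2 (norm_nonneg _))
    have hsm : 16 * C * |τ.re| < e' ^ 4 * (k / 2) := by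
      have h2 : |τ.re| < η := lt_of_le_of_lt hre_abs hτn
      have h3 : 16 * C * |τ.re| ≤ 16 * C * η := mul_le_mul_of_nonneg_left h2.le (by positivity)
      have h4 : 0 < C * η := by positivity
      linarith
    exact ns0_real (a := τ.re) (β := -τ.im) (p := w.re) (q := w.im) (ν := ‖w‖) (e := e')
      (K := k / 2) (C := C) (N := ‖τ ^ 2 - w ^ 2 / 4‖) he'0 he'1 (by positivity) hC
      (by linarith [hb.2]) (by linarith [hb.1]) (Complex.abs_re_le_norm _)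
      (Complex.abs_im_le_norm _) hre (by linarith) hnA (norm_nonneg _) himA' hsm

/-- The algebra of `NS1`. -/
lemma ns1_real {a b p q w₀ K C N s : ℝ} (hs : s = 1 ∨ s = -1) (hw₀ : 0 < w₀) (hw1 : w₀ ≤ 1)
    (hK : 0 < K) (hC : 0 < C)
    (hb : b < 0) (hbq : |q| ≤ 8 * |b|) (ha : |a| ≤ w₀ / 16) (hp : |p - w₀| ≤ w₀ / 32)
    (hN : N ≤ w₀ ^ 2 / 14) (hN0 : 0 ≤ N)
    (him : |b * (2 * a + s * p) + s * (a * q)| * K ≤
      N * (C * (w₀ * (5 * |b|) + 8 * |b|)))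
    (hsm : 4 * C * w₀ < K) : False := by
  have hb0 : 0 < |b| := abs_pos.mpr hb.ne
  have ha0 := abs_nonneg a
  have hq0 := abs_nonneg q
  have hs1 : |s| = 1 := by rcases hs with h | h <;> rw [h] <;> norm_num
  have h1 : w₀ * (27 / 32) ≤ |2 * a + s * p| := by
    have h2 : |s * p| - |2 * a| ≤ |2 * a + s * p| := by
      have := abs_sub_abs_le_abs_sub (s * p) (-(2 * a))
      rw [abs_neg, sub_neg_eq_add, add_comm] at this
      exact this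
    rw [abs_mul, hs1, one_mul, abs_mul] at h2
    norm_num at h2
    have h3 : w₀ * (31 / 32) ≤ |p| := by
      have := abs_le.mp hp
      have h4 := le_abs_self p
      linarith
    linarith
  have h2 : |s * (a * q)| ≤ w₀ / 2 * |b| := by
    rw [abs_mul, hs1, one_mul, abs_mul]
    calc |a| * |q| ≤ (w₀ / 16) * (8 * |b|) := mul_le_mul ha hbq hq0 (by positivity)
      _ = w₀ / 2 * |b| := by ring
  have h3 : w₀ * (11 / 32) * |b| ≤ |b * (2 * a + s * p) + s * (a * q)| := by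
    have h4 : |b * (2 * a + s * p)| - |s * (a * q)| ≤ |b * (2 * a + s * p) + s * (a * q)| := by
      have := abs_sub_abs_le_abs_sub (b * (2 * a + s * p)) (-(s * (a * q)))
      rw [abs_neg, sub_neg_eq_add] at this
      exact this
    rw [abs_mul b] at h4
    have h5 : |b| * (w₀ * (27 / 32)) ≤ |b| * |2 * a + s * p| :=
      mul_le_mul_of_nonneg_left h1 hb0.le
    nlinarith
  have h4 : (w₀ * (11 / 32) * |b|) * K ≤ (w₀ ^ 2 / 14) * (C * (13 * |b|)) := by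
    calc (w₀ * (11 / 32) * |b|) * K ≤ _ := mul_le_mul_of_nonneg_right h3 hK.le
      _ ≤ N * (C * (w₀ * (5 * |b|) + 8 * |b|)) := him
      _ ≤ (w₀ ^ 2 / 14) * (C * (13 * |b|)) := by
        apply mul_le_mul hN _ (by positivity) (by positivity)
        apply mul_le_mul_of_nonneg_left _ hC.le
        nlinarith
  have h5 : (w₀ * |b|) * (11 / 32 * K) ≤ (w₀ * |b|) * (13 / 14 * C * w₀) := by nlinarith
  have h6 : 11 / 32 * K ≤ 13 / 14 * C * w₀ := le_of_mul_le_mul_left h5 (by positivity)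
  nlinarith

/-- `NS1` for one sign. -/
lemma ns1_aux (h : Iso x₁ κ r s₁ Z tI U) {R : ℝ} (hR : 0 < R) :
    ∃ w₁ : ℝ, 0 < w₁ ∧ ∀ s : ℝ, (s = 1 ∨ s = -1) → ∀ w₀ : ℝ, 0 < w₀ → w₀ < w₁ →
      ∀ σ w : ℂ, ‖σ‖ ≤ w₀ / 16 → ‖w - w₀‖ ≤ w₀ / 32 → σ.im < -(|w.im| / 8) →
      Z (tI w + (σ + s * (w / 2))) w ∈ SB s₁ (U 0 0) R := by
  obtain ⟨C, δ, hC, hδ, hδκ, hδr, hU⟩ := U_im h
  set k : ℝ := ‖U 0 0‖ with hk
  have hk0 : 0 < k := norm_pos_iff.mpr h.U0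
  refine ⟨min (min (δ / 2) 1) (min (k / 2 / (4 * C + 1)) (R / (k + 1))), by positivity, ?_⟩
  intro s hs w₀ hw₀ hw₁ σ w hσ hw him
  have d1 : w₀ < δ / 2 := lt_of_lt_of_le hw₁ ((min_le_left _ _).trans (min_le_left _ _))
  have d2 : w₀ < 1 := lt_of_lt_of_le hw₁ ((min_le_left _ _).trans (min_le_right _ _))
  have d3 : w₀ < k / 2 / (4 * C + 1) :=
    lt_of_lt_of_le hw₁ ((min_le_right _ _).trans (min_le_left _ _))
  have d4 : w₀ < R / (k + 1) := lt_of_lt_of_le hw₁ ((min_le_right _ _).trans (min_le_right _ _))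
  rw [lt_div_iff₀ (by positivity)] at d3 d4
  have hs1 : ‖(s : ℂ)‖ = 1 := by
    rw [Complex.norm_real]
    rcases hs with h | h <;> rw [h] <;> norm_num
  have hss : (s : ℂ) * s = 1 := by
    rcases hs with h | h <;> rw [h] <;> push_cast <;> ring
  have hwn : ‖w‖ ≤ w₀ * (33 / 32) := by
    calc ‖w‖ = ‖(w - w₀) + w₀‖ := by ring_nf
      _ ≤ ‖w - w₀‖ + ‖(w₀ : ℂ)‖ := norm_add_le _ _
      _ ≤ w₀ / 32 + w₀ := by
        rw [Complex.norm_real, Real.norm_eq_abs, abs_of_pos hw₀]; linarith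
      _ = _ := by ring
  set τ : ℂ := σ + s * (w / 2) with hτ
  have hτn : ‖τ‖ ≤ w₀ := by
    calc ‖τ‖ ≤ ‖σ‖ + ‖(s : ℂ) * (w / 2)‖ := norm_add_le _ _
      _ = ‖σ‖ + ‖w‖ / 2 := by rw [norm_mul, hs1, norm_div]; norm_num
      _ ≤ w₀ := by linarith
  have hAe : τ ^ 2 - w ^ 2 / 4 = σ * (σ + s * w) := by
    rw [hτ]
    have : (σ + s * (w / 2)) ^ 2 - w ^ 2 / 4 = σ * (σ + s * w) + (s * s - 1) * w ^ 2 / 4 := by ring
    rw [this, hss]; ring
  have hAn : ‖τ ^ 2 - w ^ 2 / 4‖ ≤ w₀ ^ 2 / 14 := by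
    rw [hAe, norm_mul]
    have h1 : ‖σ + s * w‖ ≤ w₀ * (35 / 32) := by
      calc ‖σ + s * w‖ ≤ ‖σ‖ + ‖(s : ℂ) * w‖ := norm_add_le _ _
        _ = ‖σ‖ + ‖w‖ := by rw [norm_mul, hs1, one_mul]
        _ ≤ _ := by linarith
    calc ‖σ‖ * ‖σ + s * w‖ ≤ (w₀ / 16) * (w₀ * (35 / 32)) :=
          mul_le_mul hσ h1 (norm_nonneg _) (by positivity)
      _ ≤ w₀ ^ 2 / 14 := by nlinarith [sq_nonneg w₀]
  obtain ⟨hU1, hU2⟩ := hU τ w (by linarith) (by linarith)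
  apply mem_SB h (by linarith) (by linarith) hU1
  · calc ‖τ ^ 2 - w ^ 2 / 4‖ * (2 * k) ≤ (w₀ ^ 2 / 14) * (2 * k) :=
          mul_le_mul_of_nonneg_right hAn (by positivity)
      _ < R := by nlinarith
  · intro p hp hslit
    obtain ⟨hre, himA⟩ := slit_im (U00_re h) h.U0 hU1 hp hslit
    have hb : σ.im < 0 := by
      have := abs_nonneg w.im
      linarith
    have habs : |σ.im| = -σ.im := abs_of_neg hb
    have hq : |w.im| ≤ 8 * |σ.im| := by rw [habs]; linarith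
    have hsr : |s| = 1 := by rcases hs with h | h <;> rw [h] <;> norm_num
    have hA_im : (τ ^ 2 - w ^ 2 / 4).im = σ.im * (2 * σ.re + s * w.re) + s * (σ.re * w.im) := by
      rw [hAe, Complex.mul_im, Complex.add_im, Complex.add_re, Complex.re_ofReal_mul,
        Complex.im_ofReal_mul]
      ring
    have hτre : |τ.re| ≤ w₀ := (Complex.abs_re_le_norm _).trans hτn
    have hτim : |τ.im| ≤ 5 * |σ.im| := by
      have : τ.im = σ.im + s * (w.im / 2) := by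
        rw [hτ, Complex.add_im, Complex.im_ofReal_mul,
          show (w / 2 : ℂ) = w * ((1 / 2 : ℝ) : ℂ) by push_cast; ring, Complex.im_mul_ofReal]
        ring
      rw [this]
      calc |σ.im + s * (w.im / 2)| ≤ |σ.im| + |s * (w.im / 2)| := abs_add_le _ _
        _ = |σ.im| + |w.im| / 2 := by rw [abs_mul, hsr, one_mul, abs_div]; norm_num
        _ ≤ 5 * |σ.im| := by linarith
    refine ns1_real (a := σ.re) (b := σ.im) (p := w.re) (q := w.im) (w₀ := w₀) (K := k / 2)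
      (C := C) (N := ‖τ ^ 2 - w ^ 2 / 4‖) (s := s) hs hw₀ d2.le (by positivity) hC hb hq
      ((Complex.abs_re_le_norm _).trans hσ) ?_ hAn (norm_nonneg _) ?_ ?_
    · have := Complex.abs_re_le_norm (w - w₀)
      rw [Complex.sub_re, Complex.ofReal_re] at this
      exact this.trans hw
    · rw [hA_im] at himA
      refine himA.trans (mul_le_mul_of_nonneg_left ?_ (norm_nonneg _))
      refine hU2.trans (mul_le_mul_of_nonneg_left ?_ hC.le)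
      have : |τ.re| * |τ.im| ≤ w₀ * (5 * |σ.im|) :=
        mul_le_mul hτre hτim (abs_nonneg _) hw₀.le
      linarith
    · nlinarith

theorem ns1 : NS1 := by
  intro x₁ κ r s₁ Z tI U h R hR
  obtain ⟨w₁, hw₁, H⟩ := ns1_aux h hR
  refine ⟨w₁, hw₁, ?_⟩
  intro w₀ hw₀ hlt σ w hσ hw him
  constructor
  · have := H 1 (Or.inl rfl) w₀ hw₀ hlt σ w hσ hw him
    rw [Complex.ofReal_one, one_mul, ← add_assoc] at this
    exact this
  · have := H (-1) (Or.inr rfl) w₀ hw₀ hlt σ w hσ hw him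
    rw [Complex.ofReal_neg, Complex.ofReal_one] at this
    have e : tI w + σ - w / 2 = tI w + (σ + -1 * (w / 2)) := by ring
    rw [e]
    exact this

end iso

end Vale.Agent.P097.H970

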