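import Vale.Agent.P097.H970.KK
import Vale.Agent.P097.H970.NS

/-! # P097 / H970 : K1 (kink lemma at an isotropic point) -/

set_option linter.all false

open scoped ContDiff Topology ComplexConjugate
open Filter Metric Set

namespace Vale.Agent.P097.H970

open Vale.Agent.P097 Vale.Agent.P097.LR

lemma isOpen_SB {s u : ℂ} (hu : u ≠ 0) (R : ℝ) : IsOpen (SB s u R) := by
  have e : SB s u R = {ζ : ℂ | ‖ζ - s‖ < R} ∩ (fun ζ : ℂ => -((ζ - s) / u)) ⁻¹' Complex.slitPlane := by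
    ext ζ
    simp only [SB, mem_setOf_eq, mem_inter_iff, mem_preimage, and_congr_right_iff]
    intro _
    constructor
    · intro hp
      by_contra hs
      rw [Complex.mem_slitPlane_iff] at hs
      push Not at hs
      obtain ⟨h1, h2⟩ := hs
      rw [Complex.neg_re] at h1
      rw [Complex.neg_im] at h2
      apply hp ((ζ - s) / u).re (by linarith)
      have h3 : ((ζ - s) / u) = ((((ζ - s) / u).re : ℝ) : ℂ) := Complex.ext rfl (by simp; linarith)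
      rw [← h3]
      field_simp
    · intro hs p hp h0
      rw [h0, mul_div_cancel_right₀ _ hu, Complex.mem_slitPlane_iff] at hs
      rcases hs with h | h
      · simp at h; linarith
      · simp at h
  rw [e]
  apply IsOpen.inter
  · exact isOpen_lt (by fun_prop) (by fun_prop)
  · exact Complex.isOpen_slitPlane.preimage (by fun_prop)

/-- The data of `K1` for a small radius. -/
structure KD (x₁ : ℂ) (κ r : ℝ) (s₁ : ℂ) (Z : ℂ → ℂ → ℂ) (tI : ℂ → ℂ) (U : ℂ → ℂ → ℂ)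
    (R : ℝ) (Φ : ℂ → ℂ) (σ₁ ρ : ℝ) (H Q : ℂ → ℂ → ℂ) : Prop where
  h : Iso x₁ κ r s₁ Z tI U
  dΦ : DifferentiableOn ℂ Φ (SB s₁ (U 0 0) R)
  hρ : 0 < ρ
  ρκ : 4 * ρ ≤ κ
  ρσ : 4 * ρ ≤ σ₁
  ρr : ρ ≤ r
  ns : ∀ s : ℝ, (s = 1 ∨ s = -1) → ∀ σ w : ℂ, ‖σ‖ ≤ ρ / 32 → ‖w - ((ρ / 2 : ℝ) : ℂ)‖ ≤ ρ / 64 →
    σ.im < -(|w.im| / 8) → Z (tI w + (σ + s * (w / 2))) w ∈ SB s₁ (U 0 0) R
  tb : ∀ w : ℂ, ‖w‖ < ρ → ‖tI w - x₁‖ ≤ eps * ρ / 4
  dH : JD H {p | ‖p.2‖ < ρ ∧ ‖p.1 - x₁‖ < σ₁}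
  dQ : JD Q {p | ‖p.2‖ < ρ ∧ p.1.im < x₁.im - eps * ρ}
  eq : ∀ s w : ℂ, ‖w‖ < ρ → ‖s - x₁‖ < σ₁ → s.im + |w.im| / 2 < x₁.im - eps * ρ →
    Q (s + w / 2) w - Q (s - w / 2) w = w * (Φ (Z s w) - H s w)

section data

variable {x₁ : ℂ} {κ r : ℝ} {s₁ : ℂ} {Z : ℂ → ℂ → ℂ} {tI : ℂ → ℂ} {U : ℂ → ℂ → ℂ}
  {R : ℝ} {Φ : ℂ → ℂ} {σ₁ ρ : ℝ} {H Q : ℂ → ℂ → ℂ}

/-- First formula. -/
def f1 (tI : ℂ → ℂ) (Q : ℂ → ℂ → ℂ) (ε : ℝ) (σ w : ℂ) : ℂ := Q (tI w + σ + ε * w) w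

/-- Second formula. -/
noncomputable def f2 (Z : ℂ → ℂ → ℂ) (tI : ℂ → ℂ) (Φ : ℂ → ℂ) (H Q : ℂ → ℂ → ℂ) (ε : ℝ)
    (σ w : ℂ) : ℂ :=
  Q (tI w + σ) w + ε * w * (Φ (Z (tI w + (σ + ε * (w / 2))) w) - H (tI w + (σ + ε * (w / 2))) w)

/-- The glued function. -/
noncomputable def fq (x₁ : ℂ) (ρ : ℝ) (Z : ℂ → ℂ → ℂ) (tI : ℂ → ℂ) (Φ : ℂ → ℂ)
    (H Q : ℂ → ℂ → ℂ) (ε : ℝ) (σ w : ℂ) : ℂ :=
  open Classical in
  if (tI w + σ + ε * w).im < x₁.im - eps * ρ then f1 tI Q ε σ w else f2 Z tI Φ H Q ε σ w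

/-- The low domain. -/
def LD (ρ : ℝ) : Set (ℂ × ℂ) :=
  {p | ‖p.2 - ((ρ / 2 : ℝ) : ℂ)‖ < ρ / 64 ∧ ‖p.1‖ < ρ / 32 ∧
    p.1.im < -(2 * eps * ρ) - |p.2.im| / 8}

lemma eps_pos : 0 < eps := by unfold eps; norm_num

lemma isOpen_LD (ρ : ℝ) : IsOpen (LD ρ) := by
  have h1 : IsOpen {p : ℂ × ℂ | ‖p.2 - ((ρ / 2 : ℝ) : ℂ)‖ < ρ / 64} :=
    isOpen_lt (by fun_prop) (by fun_prop)
  have h2 : IsOpen {p : ℂ × ℂ | ‖p.1‖ < ρ / 32} := isOpen_lt (by fun_prop) (by fun_prop)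
  have c1 : Continuous fun p : ℂ × ℂ => p.1.im := Complex.continuous_im.comp continuous_fst
  have c2 : Continuous fun p : ℂ × ℂ => p.2.im := Complex.continuous_im.comp continuous_snd
  have h3 : IsOpen {p : ℂ × ℂ | p.1.im < -(2 * eps * ρ) - |p.2.im| / 8} :=
    isOpen_lt c1 (by fun_prop)
  exact h1.inter (h2.inter h3)

lemma wn (hρ : 0 < ρ) {w : ℂ} (hw : ‖w - ((ρ / 2 : ℝ) : ℂ)‖ < ρ / 64) : ‖w‖ < ρ * (33 / 64) := by
  calc ‖w‖ = ‖(w - ((ρ / 2 : ℝ) : ℂ)) + ((ρ / 2 : ℝ) : ℂ)‖ := by ring_nf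
    _ ≤ ‖w - ((ρ / 2 : ℝ) : ℂ)‖ + ‖((ρ / 2 : ℝ) : ℂ)‖ := norm_add_le _ _
    _ < ρ * (33 / 64) := by
      rw [Complex.norm_real, Real.norm_eq_abs, abs_of_pos (by positivity)]; linarith

lemma tim (K : KD x₁ κ r s₁ Z tI U R Φ σ₁ ρ H Q) {w : ℂ} (hw : ‖w‖ < ρ) :
    (tI w).im ≤ x₁.im + eps * ρ / 4 ∧ x₁.im - eps * ρ / 4 ≤ (tI w).im := by
  have h1 : |(tI w - x₁).im| ≤ eps * ρ / 4 := (Complex.abs_im_le_norm _).trans (K.tb w hw)
  rw [Complex.sub_im] at h1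
  have h2 := abs_le.mp h1
  exact ⟨by linarith [h2.2], by linarith [h2.1]⟩

lemma sgn {ε : ℝ} (hε : ε = 1 ∨ ε = -1) : |ε| = 1 := by
  rcases hε with h | h <;> rw [h] <;> norm_num

lemma taun {ε : ℝ} (hε : ε = 1 ∨ ε = -1) (hρ : 0 < ρ) {σ w : ℂ} (hσ : ‖σ‖ < ρ / 32)
    (hw : ‖w‖ < ρ * (33 / 64)) : ‖σ + ε * (w / 2)‖ < ρ := by
  calc ‖σ + ε * (w / 2)‖ ≤ ‖σ‖ + ‖(ε : ℂ) * (w / 2)‖ := norm_add_le _ _
    _ = ‖σ‖ + ‖w‖ / 2 := by
      rw [norm_mul, Complex.norm_real, Real.norm_eq_abs, sgn hε, one_mul, norm_div]; norm_num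
    _ < ρ := by linarith

lemma tdist (K : KD x₁ κ r s₁ Z tI U R Φ σ₁ ρ H Q) {ε : ℝ} (hε : ε = 1 ∨ ε = -1) {σ w : ℂ}
    (hσ : ‖σ‖ < ρ / 32) (hw : ‖w‖ < ρ * (33 / 64)) :
    ‖tI w + (σ + ε * (w / 2)) - x₁‖ < σ₁ := by
  have hρ := K.hρ
  have h1 := K.tb w (by linarith)
  have h2 := taun hε hρ hσ hw
  have h3 : eps * ρ / 4 ≤ ρ := by unfold eps; linarith
  calc ‖tI w + (σ + ε * (w / 2)) - x₁‖ = ‖(tI w - x₁) + (σ + ε * (w / 2))‖ := by ring_nf
    _ ≤ ‖tI w - x₁‖ + ‖σ + ε * (w / 2)‖ := norm_add_le _ _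
    _ < σ₁ := by linarith [K.ρσ]

/-- (a) both formulas agree. -/
lemma f1_eq_f2 (K : KD x₁ κ r s₁ Z tI U R Φ σ₁ ρ H Q) {ε : ℝ} (hε : ε = 1 ∨ ε = -1) {σ w : ℂ}
    (hp : (σ, w) ∈ LD ρ) (h1 : (tI w + σ + ε * w).im < x₁.im - eps * ρ) :
    f1 tI Q ε σ w = f2 Z tI Φ H Q ε σ w := by
  obtain ⟨hw, hσ, him⟩ := hp
  simp only [] at hw hσ him
  have hρ := K.hρ
  have hwn := wn hρ hw
  have hwρ : ‖w‖ < ρ := by linarith
  have htd := tdist K hε hσ hwn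
  obtain ⟨ht1, ht2⟩ := tim K hwρ
  have hepos := mul_pos eps_pos hρ
  have h1' : (tI w).im + σ.im + ε * w.im < x₁.im - eps * ρ := by
    rw [Complex.add_im, Complex.add_im, Complex.im_ofReal_mul] at h1
    exact h1
  have him2 : (tI w + (σ + ε * (w / 2))).im + |w.im| / 2 < x₁.im - eps * ρ := by
    have e : (tI w + (σ + ε * (w / 2))).im = (tI w).im + σ.im + ε * w.im / 2 := by
      rw [Complex.add_im, Complex.add_im, Complex.im_ofReal_mul,
        show (w / 2 : ℂ) = w * ((1 / 2 : ℝ) : ℂ) by push_cast; ring, Complex.im_mul_ofReal]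
      ring
    rw [e]
    have habs : |w.im| = |ε * w.im| := by rw [abs_mul, sgn hε, one_mul]
    rw [habs] at him ⊢
    rcases le_or_gt 0 (ε * w.im) with h | h
    · rw [abs_of_nonneg h]; linarith
    · rw [abs_of_neg h] at him ⊢; linarith
  have key := K.eq (tI w + (σ + ε * (w / 2))) w hwρ htd him2
  unfold f1 f2
  rcases hε with h | h
  · subst h
    push_cast at key ⊢
    have e1 : tI w + (σ + 1 * (w / 2)) + w / 2 = tI w + σ + 1 * w := by ring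
    have e2 : tI w + (σ + 1 * (w / 2)) - w / 2 = tI w + σ := by ring
    rw [e1, e2] at key
    linear_combination key
  · subst h
    push_cast at key ⊢
    have e1 : tI w + (σ + -1 * (w / 2)) + w / 2 = tI w + σ := by ring
    have e2 : tI w + (σ + -1 * (w / 2)) - w / 2 = tI w + σ + -1 * w := by ring
    rw [e1, e2] at key
    linear_combination -key

/-- (c) the glued function is the second formula on the low domain. -/
lemma fq_eq_f2 (K : KD x₁ κ r s₁ Z tI U R Φ σ₁ ρ H Q) {ε : ℝ} (hε : ε = 1 ∨ ε = -1) {σ w : ℂ}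
    (hp : (σ, w) ∈ LD ρ) : fq x₁ ρ Z tI Φ H Q ε σ w = f2 Z tI Φ H Q ε σ w := by
  unfold fq
  split_ifs with h1
  · exact f1_eq_f2 K hε hp h1
  · rfl

lemma isOpen_Q : IsOpen {p : ℂ × ℂ | ‖p.2‖ < ρ ∧ p.1.im < x₁.im - eps * ρ} := by
  have h1 : IsOpen {p : ℂ × ℂ | ‖p.2‖ < ρ} := isOpen_lt (by fun_prop) (by fun_prop)
  have c1 : Continuous fun p : ℂ × ℂ => p.1.im := Complex.continuous_im.comp continuous_fst
  have h2 : IsOpen {p : ℂ × ℂ | p.1.im < x₁.im - eps * ρ} := isOpen_lt c1 (by fun_prop)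
  exact h1.inter h2

lemma isOpen_H : IsOpen {p : ℂ × ℂ | ‖p.2‖ < ρ ∧ ‖p.1 - x₁‖ < σ₁} := by
  have h1 : IsOpen {p : ℂ × ℂ | ‖p.2‖ < ρ} := isOpen_lt (by fun_prop) (by fun_prop)
  have h2 : IsOpen {p : ℂ × ℂ | ‖p.1 - x₁‖ < σ₁} := isOpen_lt (by fun_prop) (by fun_prop)
  exact h1.inter h2

lemma dtI (h : Iso x₁ κ r s₁ Z tI U) {σ w : ℂ} (hw : ‖w‖ < r) :
    DifferentiableAt ℂ (fun p : ℂ × ℂ => tI p.2) (σ, w) := by
  have h1 : DifferentiableAt ℂ tI w := h.dI.differentiableAt (isOpen_ball.mem_nhds (by simpa using hw))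
  exact DifferentiableAt.comp (g := tI) (σ, w) h1 differentiableAt_snd

/-- `Q` evaluated at a shifted point. -/
lemma dQ_at (K : KD x₁ κ r s₁ Z tI U R Φ σ₁ ρ H Q) (c : ℂ) {σ w : ℂ} (hw : ‖w‖ < ρ)
    (him : (tI w + σ + c * w).im < x₁.im - eps * ρ) :
    DifferentiableAt ℂ (fun p : ℂ × ℂ => Q (tI p.2 + p.1 + c * p.2) p.2) (σ, w) := by
  have h1 : DifferentiableAt ℂ (fun p : ℂ × ℂ => Q p.1 p.2) (tI w + σ + c * w, w) :=
    K.dQ.differentiableAt (isOpen_Q.mem_nhds ⟨hw, him⟩)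
  have h2 := dtI (σ := σ) K.h (lt_of_lt_of_le hw K.ρr)
  have h3 : DifferentiableAt ℂ (fun p : ℂ × ℂ => (tI p.2 + p.1 + c * p.2, p.2)) (σ, w) := by
    have a1 : DifferentiableAt ℂ (fun p : ℂ × ℂ => p.1 + c * p.2) (σ, w) := by fun_prop
    have a2 : DifferentiableAt ℂ (fun p : ℂ × ℂ => tI p.2 + (p.1 + c * p.2)) (σ, w) := h2.add a1
    have a3 : DifferentiableAt ℂ (fun p : ℂ × ℂ => tI p.2 + p.1 + c * p.2) (σ, w) := by
      refine a2.congr_of_eventuallyEq (Filter.Eventually.of_forall fun p => ?_)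
      simp only []
      ring
    exact a3.prodMk differentiableAt_snd
  exact DifferentiableAt.comp (g := fun p : ℂ × ℂ => Q p.1 p.2)
    (f := fun p : ℂ × ℂ => (tI p.2 + p.1 + c * p.2, p.2)) (σ, w) h1 h3

/-- (b) the second formula is holomorphic on the low domain. -/
lemma df2 (K : KD x₁ κ r s₁ Z tI U R Φ σ₁ ρ H Q) {ε : ℝ} (hε : ε = 1 ∨ ε = -1) {σ w : ℂ}
    (hp : (σ, w) ∈ LD ρ) :
    DifferentiableAt ℂ (fun p : ℂ × ℂ => f2 Z tI Φ H Q ε p.1 p.2) (σ, w) := by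
  obtain ⟨hw, hσ, him⟩ := hp
  simp only [] at hw hσ him
  have hρ := K.hρ
  have hwn := wn hρ hw
  have hwρ : ‖w‖ < ρ := by linarith
  have hwr : ‖w‖ < r := lt_of_lt_of_le hwρ K.ρr
  have htd := tdist K hε hσ hwn
  have htn := taun hε hρ hσ hwn
  have hκ4 := K.ρκ
  obtain ⟨ht1, ht2⟩ := tim K hwρ
  have hepos := mul_pos eps_pos hρ
  have habs := abs_nonneg w.im
  -- Q
  have q0 : DifferentiableAt ℂ (fun p : ℂ × ℂ => Q (tI p.2 + p.1) p.2) (σ, w) := by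
    have := dQ_at K 0 (σ := σ) (w := w) hwρ (by
      rw [zero_mul, add_zero, Complex.add_im]; linarith)
    refine this.congr_of_eventuallyEq (Filter.Eventually.of_forall fun p => ?_)
    simp only [zero_mul, add_zero]
  -- the argument
  have hlin : DifferentiableAt ℂ (fun p : ℂ × ℂ => p.1 + ε * (p.2 / 2)) (σ, w) := by fun_prop
  have harg : DifferentiableAt ℂ (fun p : ℂ × ℂ => tI p.2 + (p.1 + ε * (p.2 / 2))) (σ, w) :=
    (dtI (σ := σ) K.h hwr).add hlin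
  -- H
  have hH : DifferentiableAt ℂ (fun p : ℂ × ℂ => H (tI p.2 + (p.1 + ε * (p.2 / 2))) p.2) (σ, w) := by
    have h1 : DifferentiableAt ℂ (fun p : ℂ × ℂ => H p.1 p.2)
        (tI w + (σ + ε * (w / 2)), w) := K.dH.differentiableAt (isOpen_H.mem_nhds ⟨hwρ, htd⟩)
    exact DifferentiableAt.comp (g := fun p : ℂ × ℂ => H p.1 p.2)
      (f := fun p : ℂ × ℂ => (tI p.2 + (p.1 + ε * (p.2 / 2)), p.2)) (σ, w) h1
      (harg.prodMk differentiableAt_snd)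
  -- Z
  have hZ : DifferentiableAt ℂ (fun p : ℂ × ℂ => Z (tI p.2 + (p.1 + ε * (p.2 / 2))) p.2) (σ, w) := by
    have hUopen : IsOpen {p : ℂ × ℂ | ‖p.1‖ < κ ∧ ‖p.2‖ < r} := by
      have h1 : IsOpen {p : ℂ × ℂ | ‖p.1‖ < κ} := isOpen_lt (by fun_prop) (by fun_prop)
      have h2 : IsOpen {p : ℂ × ℂ | ‖p.2‖ < r} := isOpen_lt (by fun_prop) (by fun_prop)
      exact h1.inter h2
    have hUd : DifferentiableAt ℂ (fun p : ℂ × ℂ => U p.1 p.2) (σ + ε * (w / 2), w) :=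
      K.h.dU.differentiableAt (hUopen.mem_nhds ⟨by simp only []; linarith, hwr⟩)
    have hUc : DifferentiableAt ℂ (fun p : ℂ × ℂ => U (p.1 + ε * (p.2 / 2)) p.2) (σ, w) :=
      DifferentiableAt.comp (g := fun p : ℂ × ℂ => U p.1 p.2)
        (f := fun p : ℂ × ℂ => (p.1 + ε * (p.2 / 2), p.2)) (σ, w) hUd
        (hlin.prodMk differentiableAt_snd)
    have hpoly : DifferentiableAt ℂ
        (fun p : ℂ × ℂ => (p.1 + ε * (p.2 / 2)) ^ 2 - p.2 ^ 2 / 4) (σ, w) := by fun_prop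
    have hexp : DifferentiableAt ℂ (fun p : ℂ × ℂ =>
        s₁ + ((p.1 + ε * (p.2 / 2)) ^ 2 - p.2 ^ 2 / 4) * U (p.1 + ε * (p.2 / 2)) p.2) (σ, w) :=
      (hpoly.mul hUc).const_add s₁
    refine hexp.congr_of_eventuallyEq ?_
    have hc1 : ContinuousAt (fun p : ℂ × ℂ => ‖p.1 + ε * (p.2 / 2)‖) (σ, w) := by fun_prop
    have hc2 : ContinuousAt (fun p : ℂ × ℂ => ‖p.2‖) (σ, w) := by fun_prop
    filter_upwards [hc1.eventually (gt_mem_nhds (show ‖σ + ε * (w / 2)‖ < κ by linarith)),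
      hc2.eventually (gt_mem_nhds hwr)] with p hp1 hp2
    exact K.h.loc _ _ hp1 hp2
  -- Φ
  have hmem : Z (tI w + (σ + ε * (w / 2))) w ∈ SB s₁ (U 0 0) R :=
    K.ns ε hε σ w hσ.le hw.le (by linarith)
  have hΦd : DifferentiableAt ℂ Φ (Z (tI w + (σ + ε * (w / 2))) w) :=
    K.dΦ.differentiableAt ((isOpen_SB K.h.U0 R).mem_nhds hmem)
  have hΦc : DifferentiableAt ℂ
      (fun p : ℂ × ℂ => Φ (Z (tI p.2 + (p.1 + ε * (p.2 / 2))) p.2)) (σ, w) :=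
    DifferentiableAt.comp (g := Φ)
      (f := fun p : ℂ × ℂ => Z (tI p.2 + (p.1 + ε * (p.2 / 2))) p.2) (σ, w) hΦd hZ
  have hc : DifferentiableAt ℂ (fun p : ℂ × ℂ => (ε : ℂ) * p.2) (σ, w) := by fun_prop
  exact q0.add (hc.mul (hΦc.sub hH))

/-- (d) points of the kinked domain outside the domain of the first formula are low. -/
lemma mem_LD (K : KD x₁ κ r s₁ Z tI U R Φ σ₁ ρ H Q) {ε : ℝ} (hε : ε = 1 ∨ ε = -1) {σ w : ℂ}
    (hp : (σ, w) ∈ DE ε (ρ / 2) (ρ / 128) (2 * eps * ρ))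
    (h1 : ¬ (tI w + σ + ε * w).im < x₁.im - eps * ρ) : (σ, w) ∈ LD ρ := by
  obtain ⟨hw, hσ, him⟩ := hp
  simp only [] at hw hσ him
  have hρ := K.hρ
  have hw' : ‖w - ((ρ / 2 : ℝ) : ℂ)‖ < ρ / 64 := by linarith
  refine ⟨hw', by simp only []; linarith, ?_⟩
  simp only []
  have hwn := wn hρ hw'
  have hwρ : ‖w‖ < ρ := by linarith
  obtain ⟨ht1, ht2⟩ := tim K hwρ
  have hepos := mul_pos eps_pos hρ
  push Not at h1
  rw [Complex.add_im, Complex.add_im, Complex.im_ofReal_mul] at h1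
  have habs : |w.im| = |ε * w.im| := by rw [abs_mul, sgn hε, one_mul]
  rw [habs] at him ⊢
  have e1 : ε * (9 / 16 * w.im) = 9 / 16 * (ε * w.im) := by ring
  rw [e1] at him
  rcases le_or_gt 0 (ε * w.im) with h | h
  · rw [abs_of_nonneg h] at him ⊢; linarith
  · rw [abs_of_neg h] at him
    exfalso
    linarith

/-- The glued function is holomorphic on the kinked domain. -/
lemma dfq (K : KD x₁ κ r s₁ Z tI U R Φ σ₁ ρ H Q) {ε : ℝ} (hε : ε = 1 ∨ ε = -1) :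
    JD (fq x₁ ρ Z tI Φ H Q ε) (DE ε (ρ / 2) (ρ / 128) (2 * eps * ρ)) := by
  rintro ⟨σ, w⟩ hp
  apply DifferentiableAt.differentiableWithinAt
  have hρ := K.hρ
  have hw : ‖w - ((ρ / 2 : ℝ) : ℂ)‖ < ρ / 64 := by
    have := hp.1
    simp only [] at this
    linarith
  have hwn := wn hρ hw
  have hwρ : ‖w‖ < ρ := by linarith
  by_cases h1 : (tI w + σ + ε * w).im < x₁.im - eps * ρ
  · have h2 := dQ_at K (ε : ℂ) (σ := σ) (w := w) hwρ h1
    refine h2.congr_of_eventuallyEq ?_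
    have hc : ContinuousAt (fun p : ℂ × ℂ => (tI p.2 + p.1 + ε * p.2).im) (σ, w) := by
      have a1 : ContinuousAt (fun p : ℂ × ℂ => tI p.2) (σ, w) :=
        (dtI (σ := σ) K.h (lt_of_lt_of_le hwρ K.ρr)).continuousAt
      have a2 : ContinuousAt (fun p : ℂ × ℂ => p.1 + ε * p.2) (σ, w) := by fun_prop
      have a3 : ContinuousAt (fun p : ℂ × ℂ => tI p.2 + (p.1 + ε * p.2)) (σ, w) := a1.add a2
      have a4 := Complex.continuous_im.continuousAt.comp a3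
      refine a4.congr (Filter.Eventually.of_forall fun p => ?_)
      simp only [Function.comp]
      rw [add_assoc]
    filter_upwards [hc.eventually (gt_mem_nhds h1)] with p hp1
    unfold fq f1
    rw [if_pos hp1]
  · have hL := mem_LD K hε hp h1
    refine (df2 K hε hL).congr_of_eventuallyEq ?_
    filter_upwards [(isOpen_LD ρ).mem_nhds hL] with p hp1
    exact fq_eq_f2 K hε (σ := p.1) (w := p.2) hp1

end data

theorem k1 : K1 := by
  intro x₁ κ r s₁ Z tI U h R Φ hR hΦ σ₁ hσ₁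
  obtain ⟨w₁, hw₁, hNS⟩ := ns1_aux h hR
  obtain ⟨CI, δI, hCI, hδI, hδIr, hI⟩ := tI_bd h
  have hκ := h.hκ
  have hep := eps_pos
  obtain ⟨ρ₀, hρ₀, g1, g2, g3, g4, g5⟩ : ∃ ρ₀ : ℝ, 0 < ρ₀ ∧ ρ₀ ≤ w₁ ∧ ρ₀ ≤ δI ∧ ρ₀ ≤ κ / 4 ∧
      ρ₀ ≤ σ₁ / 4 ∧ ρ₀ ≤ eps / (4 * CI + 1) := by
    refine ⟨min (min w₁ δI) (min (min (κ / 4) (σ₁ / 4)) (eps / (4 * CI + 1))), by positivity,
      ?_, ?_, ?_, ?_, ?_⟩
    · exact (min_le_left _ _).trans (min_le_left _ _)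
    · exact (min_le_left _ _).trans (min_le_right _ _)
    · exact ((min_le_right _ _).trans (min_le_left _ _)).trans (min_le_left _ _)
    · exact ((min_le_right _ _).trans (min_le_left _ _)).trans (min_le_right _ _)
    · exact (min_le_right _ _).trans (min_le_right _ _)
  refine ⟨ρ₀, hρ₀, ?_⟩
  intro ρ hρ hρρ₀ H Q hH hQ heq
  have hρ5 : ρ * (4 * CI + 1) ≤ eps := by
    rw [← le_div_iff₀ (by positivity)]; linarith
  have K : KD x₁ κ r s₁ Z tI U R Φ σ₁ ρ H Q := by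
    refine ⟨h, hΦ, hρ, by linarith, by linarith, by linarith, ?_, ?_, hH, hQ, heq⟩
    · intro s hs σ w hσ hw him
      exact hNS s hs (ρ / 2) (by positivity) (by linarith) σ w (by linarith) (by linarith) him
    · intro w hw
      have h1 := hI w (by linarith)
      have h2 : CI * ‖w‖ ^ 2 ≤ CI * ρ ^ 2 := by
        apply mul_le_mul_of_nonneg_left _ hCI.le
        exact pow_le_pow_left₀ (norm_nonneg _) hw.le 2
      have h3 : CI * ρ ^ 2 ≤ eps * ρ / 4 := by nlinarith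
      linarith
  set ρ₂ : ℝ := ρ / 128 / 40 with hρ₂
  have hρ₂0 : 0 < ρ₂ := by positivity
  set d : ℝ := 2 * eps * ρ with hd
  have hd0 : 0 < d := by positivity
  have hdρ : d ≤ (ρ / 128) / 100 := by rw [hd]; unfold eps; linarith
  have hdρ₂ : d < ρ₂ / 4 := by rw [hd, hρ₂]; unfold eps; linarith
  obtain ⟨Fp, hFp, hFp'⟩ := kinkW (ε := 1) (w₀ := ρ / 2) (ρ := ρ / 128) (d := d) (by norm_num)
    (by positivity) hdρ (fq x₁ ρ Z tI Φ H Q 1) (dfq K (Or.inl rfl))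
  obtain ⟨Fm, hFm, hFm'⟩ := kinkW (ε := -1) (w₀ := ρ / 2) (ρ := ρ / 128) (d := d) (by norm_num)
    (by positivity) hdρ (fq x₁ ρ Z tI Φ H Q (-1)) (dfq K (Or.inr rfl))
  set T : ℂ → ℂ → ℂ := fun σ w => (Fp σ w - Fm σ w) / w +
    (H (tI w + (σ + ((1 : ℝ) : ℂ) * (w / 2))) w + H (tI w + (σ + ((-1 : ℝ) : ℂ) * (w / 2))) w)
    with hT
  -- differentiability of `T` on the big set
  have hTd : ∀ σ w : ℂ, ‖σ‖ < 3 * ρ₂ → ‖w - ((ρ / 2 : ℝ) : ℂ)‖ < ρ₂ →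
      DifferentiableAt ℂ (fun p : ℂ × ℂ => T p.1 p.2) (σ, w) := by
    intro σ w hσ hw
    have hσ' : ‖σ‖ < ρ / 32 := by rw [hρ₂] at hσ; linarith
    have hw' : ‖w - ((ρ / 2 : ℝ) : ℂ)‖ < ρ / 64 := by rw [hρ₂] at hw; linarith
    have hwn := wn hρ hw'
    have hwρ : ‖w‖ < ρ := by linarith
    have hwr : ‖w‖ < r := lt_of_lt_of_le hwρ K.ρr
    have hw0 : w ≠ 0 := by
      rintro rfl
      rw [zero_sub, norm_neg, Complex.norm_real, Real.norm_eq_abs,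
        abs_of_pos (by positivity)] at hw'
      linarith
    have hopen : IsOpen {p : ℂ × ℂ | ‖p.1‖ < 3 * (ρ / 128 / 40) ∧
        ‖p.2 - ((ρ / 2 : ℝ) : ℂ)‖ < ρ / 128 / 40} := by
      have h1 : IsOpen {p : ℂ × ℂ | ‖p.1‖ < 3 * (ρ / 128 / 40)} :=
        isOpen_lt (by fun_prop) (by fun_prop)
      have h2 : IsOpen {p : ℂ × ℂ | ‖p.2 - ((ρ / 2 : ℝ) : ℂ)‖ < ρ / 128 / 40} :=
        isOpen_lt (by fun_prop) (by fun_prop)
      exact h1.inter h2
    have a1 : DifferentiableAt ℂ (fun p : ℂ × ℂ => Fp p.1 p.2) (σ, w) :=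
      hFp.differentiableAt (hopen.mem_nhds ⟨hσ, hw⟩)
    have a2 : DifferentiableAt ℂ (fun p : ℂ × ℂ => Fm p.1 p.2) (σ, w) :=
      hFm.differentiableAt (hopen.mem_nhds ⟨hσ, hw⟩)
    have a3 : ∀ ε : ℝ, (ε = 1 ∨ ε = -1) → DifferentiableAt ℂ
        (fun p : ℂ × ℂ => H (tI p.2 + (p.1 + ε * (p.2 / 2))) p.2) (σ, w) := by
      intro ε hε
      have hlin : DifferentiableAt ℂ (fun p : ℂ × ℂ => p.1 + ε * (p.2 / 2)) (σ, w) := by fun_prop
      have harg : DifferentiableAt ℂ (fun p : ℂ × ℂ => tI p.2 + (p.1 + ε * (p.2 / 2))) (σ, w) :=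
        (dtI (σ := σ) K.h hwr).add hlin
      have h1 : DifferentiableAt ℂ (fun p : ℂ × ℂ => H p.1 p.2)
          (tI w + (σ + ε * (w / 2)), w) :=
        K.dH.differentiableAt (isOpen_H.mem_nhds ⟨hwρ, tdist K hε hσ' hwn⟩)
      exact DifferentiableAt.comp (g := fun p : ℂ × ℂ => H p.1 p.2)
        (f := fun p : ℂ × ℂ => (tI p.2 + (p.1 + ε * (p.2 / 2)), p.2)) (σ, w) h1
        (harg.prodMk differentiableAt_snd)
    have a4 : DifferentiableAt ℂ (fun p : ℂ × ℂ => (Fp p.1 p.2 - Fm p.1 p.2) / p.2) (σ, w) := by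
      have b1 : DifferentiableAt ℂ (fun p : ℂ × ℂ => (p.2 : ℂ)⁻¹) (σ, w) :=
        (differentiableAt_snd (𝕜 := ℂ) (p := (σ, w))).fun_inv hw0
      have b2 := (a1.sub a2).mul b1
      refine b2.congr_of_eventuallyEq (Filter.Eventually.of_forall fun p => ?_)
      simp only [div_eq_mul_inv]
      rfl
    exact a4.add ((a3 1 (Or.inl rfl)).add (a3 (-1) (Or.inr rfl)))
  refine ⟨ρ / 2, ρ₂, T, by positivity, by linarith, hρ₂0, by rw [hρ₂]; linarith, ?_, ?_⟩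
  · rintro ⟨σ, w⟩ ⟨hσ, hw⟩
    simp only [] at hσ hw
    exact (hTd σ w (by linarith) hw).differentiableWithinAt
  · intro σ w hσ hw him
    have hw' : ‖w - ((ρ / 2 : ℝ) : ℂ)‖ < ρ / 64 := by rw [hρ₂] at hw; linarith
    have hwn := wn hρ hw'
    have hwρ : ‖w‖ < ρ := by linarith
    have hw0 : w ≠ 0 := by
      rintro rfl
      rw [zero_sub, norm_neg, Complex.norm_real, Real.norm_eq_abs,
        abs_of_pos (by positivity)] at hw'
      linarith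
    have habs := abs_nonneg w.im
    have hwim : |w.im| ≤ ρ₂ := (abs_im_sub w (ρ / 2)).trans hw.le
    -- rewriting of the two arguments
    have ep : ∀ σ : ℂ, tI w + σ + w / 2 = tI w + (σ + ((1 : ℝ) : ℂ) * (w / 2)) := by
      intro σ; push_cast; ring
    have em : ∀ σ : ℂ, tI w + σ - w / 2 = tI w + (σ + ((-1 : ℝ) : ℂ) * (w / 2)) := by
      intro σ; push_cast; ring
    have mem : ∀ ε : ℝ, (ε = 1 ∨ ε = -1) → ∀ σ : ℂ, ‖σ‖ < 3 * ρ₂ → σ.im < -|w.im| →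
        Z (tI w + (σ + ε * (w / 2))) w ∈ SB s₁ (U 0 0) R := by
      intro ε hε σ hσ him
      exact K.ns ε hε σ w (by rw [hρ₂] at hσ; linarith) hw'.le (by linarith)
    refine ⟨?_, ?_, ?_⟩
    · rw [ep]; exact mem 1 (Or.inl rfl) σ (by linarith) him
    · rw [em]; exact mem (-1) (Or.inr rfl) σ (by linarith) him
    · rw [ep, em]
      -- identity theorem in `σ`
      set S : Set ℂ := {σ | ‖σ‖ < 3 * ρ₂ ∧ σ.im < -|w.im|} with hS
      have hSopen : IsOpen S := by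
        have h1 : IsOpen {σ : ℂ | ‖σ‖ < 3 * ρ₂} := isOpen_lt (by fun_prop) (by fun_prop)
        have h2 : IsOpen {σ : ℂ | σ.im < -|w.im|} :=
          isOpen_lt Complex.continuous_im (by fun_prop)
        exact h1.inter h2
      have hSconv : Convex ℝ S := by
        have h1 : Convex ℝ {σ : ℂ | ‖σ‖ < 3 * ρ₂} := by
          have : {σ : ℂ | ‖σ‖ < 3 * ρ₂} = ball (0 : ℂ) (3 * ρ₂) := by
            ext z; simp
          rw [this]; exact convex_ball _ _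
        have h2 : Convex ℝ {σ : ℂ | σ.im < -|w.im|} := convex_halfSpace_im_lt _
        exact h1.inter h2
      have dZ1 : ∀ ε : ℝ, (ε = 1 ∨ ε = -1) → ∀ σ ∈ S, DifferentiableAt ℂ
          (fun σ => Φ (Z (tI w + (σ + ε * (w / 2))) w)) σ := by
        intro ε hε σ hσS
        have hσ32 : ‖σ‖ < ρ / 32 := by have := hσS.1; rw [hρ₂] at this; linarith
        have htn := taun hε hρ hσ32 hwn
        have hκ4 := K.ρκ
        have hΦd : DifferentiableAt ℂ Φ (Z (tI w + (σ + ε * (w / 2))) w) :=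
          K.dΦ.differentiableAt ((isOpen_SB K.h.U0 R).mem_nhds (mem ε hε σ hσS.1 hσS.2))
        have hlin : DifferentiableAt ℂ (fun σ : ℂ => σ + ε * (w / 2)) σ := by fun_prop
        have hUd : DifferentiableAt ℂ (fun τ => U τ w) (σ + ε * (w / 2)) :=
          (dU1 K.h (lt_of_lt_of_le hwρ K.ρr)).differentiableAt
            (isOpen_ball.mem_nhds (by rw [mem_ball_zero_iff]; linarith))
        have hUc : DifferentiableAt ℂ (fun σ : ℂ => U (σ + ε * (w / 2)) w) σ :=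
          DifferentiableAt.comp (g := fun τ => U τ w) (f := fun σ : ℂ => σ + ε * (w / 2)) σ hUd hlin
        have hpoly : DifferentiableAt ℂ
            (fun σ : ℂ => (σ + ε * (w / 2)) ^ 2 - w ^ 2 / 4) σ := by fun_prop
        have hZ : DifferentiableAt ℂ (fun σ : ℂ => Z (tI w + (σ + ε * (w / 2))) w) σ := by
          refine ((hpoly.mul hUc).const_add s₁).congr_of_eventuallyEq ?_
          have hc1 : ContinuousAt (fun σ : ℂ => ‖σ + ε * (w / 2)‖) σ := by fun_prop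
          filter_upwards [hc1.eventually (gt_mem_nhds
            (show ‖σ + ε * (w / 2)‖ < κ by linarith))] with p hp1
          exact K.h.loc _ _ hp1 (lt_of_lt_of_le hwρ K.ρr)
        exact DifferentiableAt.comp (g := Φ)
          (f := fun σ : ℂ => Z (tI w + (σ + ε * (w / 2))) w) σ hΦd hZ
      have hL : AnalyticOnNhd ℂ (fun σ => T σ w) S := by
        apply DifferentiableOn.analyticOnNhd _ hSopen
        intro σ hσS
        have h1 := hTd σ w hσS.1 hw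
        exact (DifferentiableAt.comp (g := fun p : ℂ × ℂ => T p.1 p.2)
          (f := fun σ : ℂ => (σ, w)) σ h1
          (differentiableAt_id.prodMk (differentiableAt_const w))).differentiableWithinAt
      have hRt : AnalyticOnNhd ℂ (fun σ => Φ (Z (tI w + (σ + ((1 : ℝ) : ℂ) * (w / 2))) w) +
          Φ (Z (tI w + (σ + ((-1 : ℝ) : ℂ) * (w / 2))) w)) S := by
        apply DifferentiableOn.analyticOnNhd _ hSopen
        intro σ hσS
        exact ((dZ1 1 (Or.inl rfl) σ hσS).add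
          (dZ1 (-1) (Or.inr rfl) σ hσS)).differentiableWithinAt
      -- agreement below
      have hlow : ∀ σ : ℂ, ‖σ‖ < 3 * ρ₂ → σ.im < -2 * ρ₂ - d →
          T σ w = Φ (Z (tI w + (σ + ((1 : ℝ) : ℂ) * (w / 2))) w) +
            Φ (Z (tI w + (σ + ((-1 : ℝ) : ℂ) * (w / 2))) w) := by
        intro σ hσ him
        have hLD : (σ, w) ∈ LD ρ := by
          refine ⟨hw', by simp only []; rw [hρ₂] at hσ; linarith, ?_⟩
          simp only []
          rw [← hd]; linarith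
        have h1 : Fp σ w = f2 Z tI Φ H Q 1 σ w := by
          rw [hFp' σ w hσ hw (by rw [← hρ₂]; linarith)]
          exact fq_eq_f2 K (Or.inl rfl) hLD
        have h2 : Fm σ w = f2 Z tI Φ H Q (-1) σ w := by
          rw [hFm' σ w hσ hw (by rw [← hρ₂]; linarith)]
          exact fq_eq_f2 K (Or.inr rfl) hLD
        simp only [hT]
        rw [h1, h2]
        unfold f2
        field_simp
        push_cast
        ring
      -- a point where they agree in a neighbourhood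
      set z₀ : ℂ := ((-(5 / 2 * ρ₂) : ℝ) : ℂ) * Complex.I with hz₀
      have hz₀n : ‖z₀‖ = 5 / 2 * ρ₂ := by
        rw [hz₀, norm_mul, Complex.norm_I, mul_one, Complex.norm_real, Real.norm_eq_abs, abs_neg,
          abs_of_pos (by positivity)]
      have hz₀i : z₀.im = -(5 / 2 * ρ₂) := by rw [hz₀]; simp
      have hz₀S : z₀ ∈ S := ⟨by rw [hz₀n]; linarith, by rw [hz₀i]; linarith⟩
      have hev : (fun σ => T σ w) =ᶠ[𝓝 z₀]
          fun σ => Φ (Z (tI w + (σ + ((1 : ℝ) : ℂ) * (w / 2))) w) +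
            Φ (Z (tI w + (σ + ((-1 : ℝ) : ℂ) * (w / 2))) w) := by
        have hopen : IsOpen {σ : ℂ | ‖σ‖ < 3 * ρ₂ ∧ σ.im < -2 * ρ₂ - d} := by
          have h1 : IsOpen {σ : ℂ | ‖σ‖ < 3 * ρ₂} := isOpen_lt (by fun_prop) (by fun_prop)
          have h2 : IsOpen {σ : ℂ | σ.im < -2 * ρ₂ - d} :=
            isOpen_lt Complex.continuous_im (by fun_prop)
          exact h1.inter h2
        have hmem : z₀ ∈ {σ : ℂ | ‖σ‖ < 3 * ρ₂ ∧ σ.im < -2 * ρ₂ - d} :=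
          ⟨by rw [hz₀n]; linarith, by rw [hz₀i]; linarith⟩
        filter_upwards [hopen.mem_nhds hmem] with z hz
        exact hlow z hz.1 hz.2
      exact hL.eqOn_of_preconnected_of_eventuallyEq hRt hSconv.isPreconnected hz₀S hev
        (show σ ∈ S from ⟨by linarith, him⟩)

end Vale.Agent.P097.H970
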