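import Vale.Agent.P097.H970.NS

/-! # P097 / H970 : PHI (the function below an isotropic point in the coordinate `Z · 0`) -/

set_option linter.all false

open scoped ContDiff Topology ComplexConjugate
open Filter Metric

namespace Vale.Agent.P097.H970

open Vale.Agent.P097 Vale.Agent.P097.LR

lemma sr_re_pos {z : ℂ} (hz : z ∈ Complex.slitPlane) : 0 < (sr z).re := by
  have hz0 : z ≠ 0 := Complex.slitPlane_ne_zero hz
  have harg : z.arg ≠ Real.pi := (Complex.mem_slitPlane_iff_arg.mp hz).1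
  have h1 := Complex.arg_le_pi z
  have h2 := Complex.neg_pi_lt_arg z
  have h3 : z.arg < Real.pi := lt_of_le_of_ne h1 harg
  unfold sr
  rw [Complex.cpow_def_of_ne_zero hz0, Complex.exp_re]
  apply mul_pos (Real.exp_pos _)
  apply Real.cos_pos_of_mem_Ioo
  have : (Complex.log z * (1 / 2)).im = z.arg / 2 := by
    rw [show (Complex.log z * (1 / 2) : ℂ) = Complex.log z * ((1 / 2 : ℝ) : ℂ) by push_cast; ring,
      Complex.im_mul_ofReal, Complex.log_im]; ring
  rw [this]
  constructor <;> linarith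

lemma sr_of_re_pos {z : ℂ} (hz : 0 < z.re) : sr (z ^ 2) = z := by
  rcases sr_of_sq z with h | h
  · exact h
  · exfalso
    have hs : z ^ 2 ∈ Complex.slitPlane := by
      rw [Complex.mem_slitPlane_iff]
      by_cases h1 : z.im = 0
      · left
        rw [pow_two, Complex.mul_re, h1]; nlinarith
      · right
        rw [pow_two, Complex.mul_im]
        intro h2
        have : 2 * (z.re * z.im) = 0 := by linarith
        have : z.re * z.im = 0 := by linarith
        rcases mul_eq_zero.mp this with h3 | h3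
        · linarith
        · exact h1 h3
    have := sr_re_pos hs
    rw [h, Complex.neg_re] at this
    linarith

lemma sr_real {a : ℝ} (ha : 0 ≤ a) : sr (a : ℂ) = (Real.sqrt a : ℝ) := by
  unfold sr
  rw [Real.sqrt_eq_rpow, Complex.ofReal_cpow ha]
  norm_num

theorem phi : PHI := by
  intro x₁ κ r s₁ Z tI U h Γ κ' hκ' hΓ
  have hκ := h.hκ
  have hr0 : ‖(0 : ℂ)‖ < r := by simpa using h.hr
  obtain ⟨e1, e2⟩ := even_factor (f := fun τ => U τ 0) hκ (dU1 h hr0)
    (fun z hz => h.Uev z 0 hz hr0)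
  set u : ℂ → ℂ := fun y => U (sr y) 0 with hu
  have u0 : u 0 = U 0 0 := by
    have h0 : sr 0 = 0 := by unfold sr; simp
    simp only [hu, h0]
  have hk0 : 0 < ‖U 0 0‖ := norm_pos_iff.mpr h.U0
  set φ : ℂ → ℂ := fun y => y * u y with hφ
  have hball : ball (0 : ℂ) (κ ^ 2) ∈ 𝓝 (0 : ℂ) := isOpen_ball.mem_nhds (mem_ball_self (by positivity))
  have hua : AnalyticAt ℂ u 0 := (e1.analyticOnNhd isOpen_ball) 0 (mem_ball_self (by positivity))
  have hφa : AnalyticAt ℂ φ 0 := analyticAt_id.mul hua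
  have hφd : deriv φ 0 ≠ 0 := by
    have h1 : HasDerivAt φ (1 * u 0 + 0 * deriv u 0) 0 :=
      (hasDerivAt_id (0 : ℂ)).mul hua.differentiableAt.hasDerivAt
    rw [h1.deriv, zero_mul, add_zero, one_mul, u0]
    exact h.U0
  have φ0 : φ 0 = 0 := by simp [hφ]
  set ψ : ℂ → ℂ := hφa.hasStrictDerivAt.localInverse _ _ _ hφd with hψ
  have hψa : AnalyticAt ℂ ψ 0 := by
    have := hφa.analyticAt_localInverse hφd
    rw [φ0] at this
    exact this
  have hleft : ∀ᶠ y in 𝓝 (0 : ℂ), ψ (φ y) = y :=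
    HasStrictDerivAt.eventually_left_inverse hφa.hasStrictDerivAt hφd
  have hright : ∀ᶠ ζ in 𝓝 (0 : ℂ), φ (ψ ζ) = ζ := by
    have := HasStrictDerivAt.eventually_right_inverse hφa.hasStrictDerivAt hφd
    rw [φ0] at this
    exact this
  have ψ0 : ψ 0 = 0 := by
    have := hleft.self_of_nhds
    rwa [φ0] at this
  -- small radius in the `y` plane
  obtain ⟨ε₁, hε₁, hleft'⟩ := Metric.eventually_nhds_iff.mp hleft
  have hclose : ∀ᶠ y in 𝓝 (0 : ℂ), ‖u y - U 0 0‖ < ‖U 0 0‖ / 2 := by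
    have := Metric.continuousAt_iff.mp hua.continuousAt (‖U 0 0‖ / 2) (by positivity)
    obtain ⟨d, hd, hdc⟩ := this
    rw [Metric.eventually_nhds_iff]
    refine ⟨d, hd, fun y hy => ?_⟩
    have := hdc hy
    rwa [dist_eq_norm, u0] at this
  obtain ⟨ε₂, hε₂, hclose'⟩ := Metric.eventually_nhds_iff.mp hclose
  obtain ⟨ε, hε, hεε₁, hεε₂, hεκ, hεκ'⟩ : ∃ ε : ℝ, 0 < ε ∧ ε ≤ ε₁ ∧ ε ≤ ε₂ ∧ ε ≤ κ ^ 2 ∧
      ε ≤ κ' ^ 2 := by
    refine ⟨min (min ε₁ ε₂) (min (κ ^ 2) (κ' ^ 2)), by positivity, ?_, ?_, ?_, ?_⟩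
    · exact (min_le_left _ _).trans (min_le_left _ _)
    · exact (min_le_left _ _).trans (min_le_right _ _)
    · exact (min_le_right _ _).trans (min_le_left _ _)
    · exact (min_le_right _ _).trans (min_le_right _ _)
  have hψc : ∀ᶠ ζ in 𝓝 (0 : ℂ), ‖ψ ζ‖ < ε := by
    obtain ⟨d, hd, hdc⟩ := Metric.continuousAt_iff.mp hψa.continuousAt ε hε
    rw [Metric.eventually_nhds_iff]
    refine ⟨d, hd, fun y hy => ?_⟩
    have := hdc hy
    rwa [ψ0, dist_zero_right] at this
  have hψd : ∀ᶠ ζ in 𝓝 (0 : ℂ), DifferentiableAt ℂ ψ ζ := by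
    filter_upwards [hψa.eventually_analyticAt] with ζ hζ using hζ.differentiableAt
  obtain ⟨R, hR, hRall⟩ := Metric.eventually_nhds_iff.mp ((hψc.and hψd).and hright)
  -- the point below the isotropic point
  have key : ∀ ζ : ℂ, ζ ∈ SB s₁ (U 0 0) R → ‖ψ (ζ - s₁)‖ < ε ∧ DifferentiableAt ℂ ψ (ζ - s₁) ∧
      -ψ (ζ - s₁) ∈ Complex.slitPlane := by
    intro ζ hζ
    obtain ⟨⟨h1, h2⟩, h3⟩ := hRall (y := ζ - s₁) (by simpa using hζ.1)
    refine ⟨h1, h2, ?_⟩
    by_contra hslit
    rw [Complex.mem_slitPlane_iff] at hslit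
    push Not at hslit
    obtain ⟨g1, g2⟩ := hslit
    rw [Complex.neg_re] at g1
    rw [Complex.neg_im] at g2
    set a : ℝ := (ψ (ζ - s₁)).re with ha
    have ha0 : 0 ≤ a := by linarith
    have hya : ψ (ζ - s₁) = (a : ℂ) := Complex.ext rfl (by simp; linarith)
    have haε : a < ε := by
      rw [hya, Complex.norm_real, Real.norm_eq_abs, abs_of_nonneg ha0] at h1
      exact h1
    have hsq : |Real.sqrt a| < κ := by
      rw [abs_of_nonneg (Real.sqrt_nonneg a)]
      rw [Real.sqrt_lt' hκ]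
      linarith
    have hreal : (u (a : ℂ)).im = 0 := by
      have := h.Ure (Real.sqrt a) 0 hsq (by simpa using h.hr)
      simp only [hu, sr_real ha0]
      simpa using this
    have hcl : ‖u (a : ℂ) - U 0 0‖ < ‖U 0 0‖ / 2 := by
      apply hclose'
      rw [dist_zero_right, Complex.norm_real, Real.norm_eq_abs, abs_of_nonneg ha0]
      linarith
    have hU0 := U00_re h
    -- the ratio is nonnegative
    have hu' : u (a : ℂ) = ((u (a : ℂ)).re : ℂ) := Complex.ext rfl (by simp [hreal])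
    have hU' : U 0 0 = ((U 0 0).re : ℂ) := Complex.ext rfl (by simp [hU0])
    have hU0' : (U 0 0).re ≠ 0 := by
      intro h0; apply h.U0; rw [hU', h0]; simp
    set k : ℝ := (U 0 0).re with hk
    set v : ℝ := (u (a : ℂ)).re with hv
    have hcl2 : |v - k| < |k| / 2 := by
      rw [hu', hU', ← Complex.ofReal_sub, Complex.norm_real, Complex.norm_real,
        Real.norm_eq_abs, Real.norm_eq_abs] at hcl
      exact hcl
    have hratio : 0 < v / k := by
      rcases lt_or_gt_of_ne hU0' with hk1 | hk1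
      · rw [abs_of_neg hk1] at hcl2
        have := (abs_lt.mp hcl2).2
        exact div_pos_of_neg_of_neg (by linarith) hk1
      · rw [abs_of_pos hk1] at hcl2
        have := (abs_lt.mp hcl2).1
        exact div_pos (by linarith) hk1
    apply hζ.2 (a * (v / k)) (by positivity)
    rw [← h3, hya]
    simp only [hφ]
    rw [hu', hU']
    push_cast
    have : (k : ℂ) ≠ 0 := by exact_mod_cast hU0'
    field_simp
  obtain ⟨δ₀, hδ₀, hns⟩ := ns0 x₁ κ r s₁ Z tI U h R 1 hR one_pos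
  set Φ : ℂ → ℂ := fun ζ => Γ (x₁ + -Complex.I * sr (-ψ (ζ - s₁))) with hΦ
  obtain ⟨κ'', hκ'', k1, k2, k3⟩ : ∃ κ'' : ℝ, 0 < κ'' ∧ κ'' ≤ κ ∧ κ'' ≤ δ₀ ∧ κ'' ^ 2 ≤ ε := by
    refine ⟨min (min κ δ₀) (Real.sqrt ε), by positivity, ?_, ?_, ?_⟩
    · exact (min_le_left _ _).trans (min_le_left _ _)
    · exact (min_le_left _ _).trans (min_le_right _ _)
    · calc (min (min κ δ₀) (Real.sqrt ε)) ^ 2 ≤ (Real.sqrt ε) ^ 2 :=
          pow_le_pow_left₀ (by positivity) (min_le_right _ _) 2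
        _ = ε := Real.sq_sqrt hε.le
  refine ⟨R, κ'', Φ, hR, hκ'', ?_, ?_⟩
  · intro ζ hζ
    obtain ⟨h1, h2, h3⟩ := key ζ hζ
    apply DifferentiableAt.differentiableWithinAt
    have hopen : IsOpen {x : ℂ | ‖x - x₁‖ < κ' ∧ x.im < x₁.im} :=
      (isOpen_lt ((continuous_id.sub continuous_const).norm) continuous_const).inter
        (isOpen_lt Complex.continuous_im continuous_const)
    have hmem : x₁ + -Complex.I * sr (-ψ (ζ - s₁)) ∈ {x : ℂ | ‖x - x₁‖ < κ' ∧ x.im < x₁.im} := by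
      constructor
      · rw [add_sub_cancel_left, norm_mul, norm_neg, Complex.norm_I, one_mul]
        have h4 := norm_sr_sq (-ψ (ζ - s₁))
        rw [norm_neg] at h4
        have h5 : ‖sr (-ψ (ζ - s₁))‖ ^ 2 < κ' ^ 2 := by rw [h4]; linarith
        exact lt_of_pow_lt_pow_left₀ 2 hκ'.le h5
      · have h4 := sr_re_pos h3
        rw [Complex.add_im, neg_mul, Complex.neg_im, Complex.I_mul_im]
        linarith
    have hΓd : DifferentiableAt ℂ Γ (x₁ + -Complex.I * sr (-ψ (ζ - s₁))) :=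
      hΓ.differentiableAt (hopen.mem_nhds hmem)
    have hin : DifferentiableAt ℂ (fun ζ => x₁ + -Complex.I * sr (-ψ (ζ - s₁))) ζ := by
      have a1 : DifferentiableAt ℂ (fun ζ => ψ (ζ - s₁)) ζ :=
        DifferentiableAt.comp (g := ψ) ζ h2 ((differentiableAt_id (x := ζ)).sub_const s₁)
      have a2 : DifferentiableAt ℂ (fun ζ => sr (-ψ (ζ - s₁))) ζ := a1.neg.cpow_const h3
      exact (a2.const_mul (-Complex.I)).const_add x₁
    exact DifferentiableAt.comp (g := Γ) ζ hΓd hin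
  · intro x hx him
    refine ⟨?_, ?_⟩
    · refine hns x 0 (by linarith) (by simpa using hδ₀) ?_
      simpa using him
    · obtain ⟨τ, hτ⟩ : ∃ τ, τ = x - x₁ := ⟨_, rfl⟩
      have hx' : x = x₁ + τ := by rw [hτ]; ring
      have hτn : ‖τ‖ < κ'' := by rw [hτ]; exact hx
      have hτim : τ.im < 0 := by rw [hτ, Complex.sub_im]; linarith
      have hτκ : ‖τ‖ < κ := by linarith
      have hloc := h.loc τ 0 hτκ hr0
      rw [h.I0] at hloc
      have hZ : Z x 0 - s₁ = φ (τ ^ 2) := by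
        rw [hx', hloc]
        simp only [hφ, hu]
        have : U (sr (τ ^ 2)) 0 = U τ 0 := by
          rcases e2 τ with h1 | h1
          · exact h1
          · linarith
        rw [this]
        ring
      have hε' : ‖τ ^ 2‖ < ε := by
        rw [norm_pow]
        have : ‖τ‖ ^ 2 < κ'' ^ 2 := pow_lt_pow_left₀ hτn (norm_nonneg _) two_ne_zero
        linarith
      have hψφ : ψ (φ (τ ^ 2)) = τ ^ 2 := by
        apply hleft'
        rw [dist_zero_right]; linarith
      simp only [hΦ]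
      rw [hZ, hψφ]
      have hI : -τ ^ 2 = (Complex.I * τ) ^ 2 := by rw [mul_pow, Complex.I_sq]; ring
      have hre : 0 < (Complex.I * τ).re := by rw [Complex.I_mul_re]; linarith
      rw [hI, sr_of_re_pos hre, hx']
      congr 1
      have : -Complex.I * (Complex.I * τ) = -(Complex.I ^ 2) * τ := by ring
      rw [this, Complex.I_sq]; ring

end Vale.Agent.P097.H970
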