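import Vale.Agent.P097.LR.Defs

/-! # P097 / H970 : estimates near an isotropic point (tools for PHI, NS0, NS1, K1) -/

set_option linter.all false

open scoped ContDiff Topology ComplexConjugate
open Filter Metric

namespace Vale.Agent.P097.H970

open Vale.Agent.P097 Vale.Agent.P097.LR

/-- The square root. -/
noncomputable def sr (y : ℂ) : ℂ := y ^ (1 / 2 : ℂ)

lemma sr_sq (y : ℂ) : sr y ^ 2 = y := by
  unfold sr
  rw [← Complex.cpow_nat_mul]
  norm_num

lemma norm_sr_sq (y : ℂ) : ‖sr y‖ ^ 2 = ‖y‖ := by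
  rw [← norm_pow, sr_sq]

lemma sr_mem {y : ℂ} {κ : ℝ} (hκ : 0 < κ) (hy : y ∈ ball (0 : ℂ) (κ ^ 2)) :
    sr y ∈ ball (0 : ℂ) κ := by
  rw [mem_ball_zero_iff] at hy ⊢
  have := norm_sr_sq y
  nlinarith [norm_nonneg (sr y)]

lemma sr_of_sq (z : ℂ) : sr (z ^ 2) = z ∨ sr (z ^ 2) = -z := by
  have := sr_sq (z ^ 2)
  exact sq_eq_sq_iff_eq_or_eq_neg.mp this

/-- An even holomorphic function is a holomorphic function of the square. -/
lemma even_factor {f : ℂ → ℂ} {κ : ℝ} (hκ : 0 < κ) (hf : DifferentiableOn ℂ f (ball 0 κ))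
    (hev : ∀ z : ℂ, ‖z‖ < κ → f (-z) = f z) :
    DifferentiableOn ℂ (fun y => f (sr y)) (ball 0 (κ ^ 2)) ∧
      ∀ z : ℂ, f (sr (z ^ 2)) = f z ∨ κ ≤ ‖z‖ := by
  have hval : ∀ z : ℂ, f (sr (z ^ 2)) = f z ∨ κ ≤ ‖z‖ := by
    intro z
    by_cases hz : κ ≤ ‖z‖
    · exact Or.inr hz
    left
    push Not at hz
    rcases sr_of_sq z with h | h
    · rw [h]
    · rw [h, hev z hz]
  refine ⟨?_, hval⟩
  have hopen : IsOpen (ball (0 : ℂ) κ) := isOpen_ball
  have hd : ∀ z : ℂ, ‖z‖ < κ → DifferentiableAt ℂ f z := fun z hz =>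
    hf.differentiableAt (hopen.mem_nhds (by simpa using hz))
  rw [← Complex.differentiableOn_compl_singleton_and_continuousAt_iff
    (isOpen_ball.mem_nhds (mem_ball_self (by positivity)) : ball (0 : ℂ) (κ ^ 2) ∈ 𝓝 (0 : ℂ))]
  constructor
  · rintro y ⟨hy, hy0⟩
    have hy0' : y ≠ 0 := hy0
    apply DifferentiableAt.differentiableWithinAt
    have hn : ‖sr y‖ < κ := by simpa using sr_mem hκ hy
    by_cases hs : y ∈ Complex.slitPlane
    · have h1 : DifferentiableAt ℂ sr y := by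
        unfold sr
        exact (differentiableAt_id (x := y)).cpow_const hs
      exact (hd _ hn).comp y h1
    · have hs' : -y ∈ Complex.slitPlane := by
        rw [Complex.mem_slitPlane_iff] at hs ⊢
        push Not at hs
        left
        simp only [Complex.neg_re]
        rcases lt_or_eq_of_le hs.1 with h | h
        · linarith
        · exfalso; exact hy0' (Complex.ext h hs.2)
      have h1 : DifferentiableAt ℂ (fun y => Complex.I * sr (-y)) y := by
        have : DifferentiableAt ℂ (fun y : ℂ => (-y) ^ (1 / 2 : ℂ)) y :=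
          (differentiableAt_id (x := y)).neg.cpow_const hs'
        exact this.const_mul _
      have hn2 : ‖Complex.I * sr (-y)‖ < κ := by
        rw [norm_mul, Complex.norm_I, one_mul]
        have := norm_sr_sq y
        have h2 := norm_sr_sq (-y)
        rw [norm_neg] at h2
        have h3 : ‖sr (-y)‖ = ‖sr y‖ := by
          have : ‖sr (-y)‖ ^ 2 = ‖sr y‖ ^ 2 := by rw [h2, this]
          exact (pow_left_inj₀ (norm_nonneg _) (norm_nonneg _) two_ne_zero).mp this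
        rw [h3]; exact hn
      have h2 : DifferentiableAt ℂ (fun y => f (Complex.I * sr (-y))) y := (hd _ hn2).comp y h1
      apply h2.congr_of_eventuallyEq
      have hyb : ∀ᶠ z in 𝓝 y, z ∈ ball (0 : ℂ) (κ ^ 2) := isOpen_ball.mem_nhds hy
      filter_upwards [hyb] with z hz
      have h3 : (Complex.I * sr (-z)) ^ 2 = z := by
        rw [mul_pow, Complex.I_sq, sr_sq]; ring
      have h4 := hval (Complex.I * sr (-z))
      rw [h3] at h4
      rcases h4 with h4 | h4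
      · exact h4
      · exfalso
        rw [norm_mul, Complex.norm_I, one_mul] at h4
        have h5 := norm_sr_sq (-z)
        rw [norm_neg] at h5
        rw [mem_ball_zero_iff] at hz
        nlinarith
  · have h0 : sr 0 = 0 := by unfold sr; simp
    have h1 : ContinuousAt sr 0 := by
      unfold sr
      exact Complex.continuousAt_cpow_const_of_re_pos (Or.inl (by simp)) (by norm_num)
    have h2 : ContinuousAt f (sr 0) := by rw [h0]; exact (hd 0 (by simpa using hκ)).continuousAt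
    exact ContinuousAt.comp h2 h1

/-- Lipschitz estimate from a bound. -/
lemma lip_of_bound {f : ℂ → ℂ} {δ M : ℝ} (hδ : 0 < δ) (hM : 0 ≤ M)
    (hf : DifferentiableOn ℂ f (ball 0 δ)) (hb : ∀ z : ℂ, ‖z‖ < δ → ‖f z‖ ≤ M)
    {a b : ℂ} (ha : ‖a‖ < δ / 4) (hb' : ‖b‖ < δ / 4) :
    ‖f a - f b‖ ≤ (2 * M + 1) / (δ / 2) * ‖a - b‖ := by
  have hsub : ball b (δ / 2) ⊆ ball (0 : ℂ) δ := by
    intro z hz
    rw [mem_ball, dist_eq_norm] at hz
    rw [mem_ball_zero_iff]
    calc ‖z‖ = ‖(z - b) + b‖ := by ring_nf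
      _ ≤ ‖z - b‖ + ‖b‖ := norm_add_le _ _
      _ < δ := by linarith
  have h := Complex.dist_le_div_mul_dist_of_mapsTo_ball (f := f) (c := b) (z := a) (R₁ := δ / 2)
    (R₂ := 2 * M + 1) (hf.mono hsub) (by
      intro z hz
      rw [mem_closedBall, dist_eq_norm]
      have h1 := hb z (by simpa using hsub hz)
      have h2 := hb b (by linarith)
      calc ‖f z - f b‖ ≤ ‖f z‖ + ‖f b‖ := norm_sub_le _ _
        _ ≤ 2 * M + 1 := by linarith) (by
      rw [mem_ball, dist_eq_norm]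
      calc ‖a - b‖ ≤ ‖a‖ + ‖b‖ := norm_sub_le _ _
        _ < δ / 2 := by linarith)
  simpa [dist_eq_norm] using h

/-- Two holomorphic functions on a disc around `0` which agree on the real points agree. -/
lemma eq_of_real {f g : ℂ → ℂ} {κ : ℝ} (hκ : 0 < κ) (hf : DifferentiableOn ℂ f (ball 0 κ))
    (hg : DifferentiableOn ℂ g (ball 0 κ)) (h : ∀ x : ℝ, |x| < κ → f x = g x) :
    ∀ z : ℂ, ‖z‖ < κ → f z = g z := by
  intro z hz
  have hfa : AnalyticOnNhd ℂ f (ball 0 κ) := hf.analyticOnNhd isOpen_ball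
  have hga : AnalyticOnNhd ℂ g (ball 0 κ) := hg.analyticOnNhd isOpen_ball
  refine hfa.eqOn_of_preconnected_of_frequently_eq hga
    ((convex_ball (0 : ℂ) κ).isPreconnected) (mem_ball_self hκ) ?_ (by simpa using hz)
  rw [Filter.frequently_iff]
  intro U hU
  rw [mem_nhdsWithin] at hU
  obtain ⟨V, hV, h0V, hVU⟩ := hU
  obtain ⟨e, he, hball⟩ := Metric.isOpen_iff.mp hV 0 h0V
  set x : ℝ := min e κ / 2 with hx
  have hx0 : 0 < x := by positivity
  have hxe : x < e := by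
    have := min_le_left e κ; linarith
  have hxκ : x < κ := by
    have := min_le_right e κ; linarith
  refine ⟨(x : ℂ), hVU ⟨hball ?_, ?_⟩, h x (by rw [abs_of_pos hx0]; exact hxκ)⟩
  · rw [mem_ball_zero_iff, Complex.norm_real, Real.norm_eq_abs, abs_of_pos hx0]; exact hxe
  · simp only [Set.mem_compl_iff, Set.mem_singleton_iff]
    exact_mod_cast hx0.ne'

section iso

variable {x₁ : ℂ} {κ r : ℝ} {s₁ : ℂ} {Z : ℂ → ℂ → ℂ} {tI : ℂ → ℂ} {U : ℂ → ℂ → ℂ}

lemma dU1 (h : Iso x₁ κ r s₁ Z tI U) {w : ℂ} (hw : ‖w‖ < r) :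
    DifferentiableOn ℂ (fun τ => U τ w) (ball 0 κ) := by
  have h1 := h.dU
  unfold JD at h1
  exact h1.comp (f := fun τ : ℂ => ((τ, w) : ℂ × ℂ))
    (differentiableOn_id.prodMk (differentiableOn_const w))
    (fun τ hτ => ⟨by simpa using hτ, hw⟩)

lemma dU2 (h : Iso x₁ κ r s₁ Z tI U) {τ : ℂ} (hτ : ‖τ‖ < κ) :
    DifferentiableOn ℂ (fun w => U τ w) (ball 0 r) := by
  have h1 := h.dU
  unfold JD at h1
  exact h1.comp (f := fun w : ℂ => ((τ, w) : ℂ × ℂ))
    ((differentiableOn_const τ).prodMk differentiableOn_id)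
    (fun w hw => ⟨hτ, by simpa using hw⟩)

lemma dconj {f : ℂ → ℂ} {κ : ℝ} (hf : DifferentiableOn ℂ f (ball 0 κ)) :
    DifferentiableOn ℂ (fun z => conj (f (conj z))) (ball 0 κ) := by
  intro z hz
  have hz' : conj z ∈ ball (0 : ℂ) κ := by
    rw [mem_ball_zero_iff] at hz ⊢
    rwa [RCLike.norm_conj]
  have h1 : DifferentiableAt ℂ f (conj z) := hf.differentiableAt (isOpen_ball.mem_nhds hz')
  have h2 := h1.conj_conj
  simp only [Complex.conj_conj] at h2
  exact h2.differentiableWithinAt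

/-- Schwarz reflection for `U`. -/
lemma U_conj (h : Iso x₁ κ r s₁ Z tI U) {τ w : ℂ} (hτ : ‖τ‖ < κ) (hw : ‖w‖ < r) :
    U (conj τ) (conj w) = conj (U τ w) := by
  have step1 : ∀ (w : ℝ), |w| < r → ∀ τ : ℂ, ‖τ‖ < κ → U τ w = conj (U (conj τ) w) := by
    intro w hw
    have hw' : ‖(w : ℂ)‖ < r := by rwa [Complex.norm_real, Real.norm_eq_abs]
    refine eq_of_real h.hκ (dU1 h hw') (dconj (dU1 h hw')) ?_
    intro x hx
    rw [Complex.conj_ofReal]
    exact (Complex.conj_eq_iff_im.mpr (h.Ure x w hx hw)).symm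
  have step2 : ∀ w : ℂ, ‖w‖ < r → U τ w = conj (U (conj τ) (conj w)) := by
    have hτ' : ‖conj τ‖ < κ := by rwa [RCLike.norm_conj]
    refine eq_of_real h.hr (dU2 h hτ) (dconj (dU2 h hτ')) ?_
    intro x hx
    rw [Complex.conj_ofReal]
    exact step1 x hx τ hτ
  rw [step2 w hw, Complex.conj_conj]

lemma U00_re (h : Iso x₁ κ r s₁ Z tI U) : (U 0 0).im = 0 := by
  have := h.Ure 0 0 (by simpa using h.hκ) (by simpa using h.hr)
  simpa using this

/-- Main estimate: `U` is close to `U 0 0` and almost real. -/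
lemma U_im (h : Iso x₁ κ r s₁ Z tI U) :
    ∃ C δ : ℝ, 0 < C ∧ 0 < δ ∧ δ ≤ κ ∧ δ ≤ r ∧ ∀ τ w : ℂ, ‖τ‖ < δ → ‖w‖ < δ →
      ‖U τ w - U 0 0‖ ≤ ‖U 0 0‖ / 2 ∧
      |(U τ w).im| ≤ C * (|τ.re| * |τ.im| + |w.im|) := by
  set k : ℝ := ‖U 0 0‖ with hk
  have hk0 : 0 < k := norm_pos_iff.mpr h.U0
  -- continuity
  have hopen : IsOpen {p : ℂ × ℂ | ‖p.1‖ < κ ∧ ‖p.2‖ < r} :=
    (isOpen_lt (continuous_fst.norm) continuous_const).inter
      (isOpen_lt (continuous_snd.norm) continuous_const)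
  have hc : ContinuousAt (fun p : ℂ × ℂ => U p.1 p.2) (0, 0) :=
    (h.dU.differentiableAt (hopen.mem_nhds ⟨by simpa using h.hκ, by simpa using h.hr⟩)).continuousAt
  obtain ⟨d, hd, hdc⟩ := Metric.continuousAt_iff.mp hc (k / 2) (by positivity)
  set δ₁ : ℝ := min (min d 1) (min κ r) with hδ₁
  have hδ₁0 : 0 < δ₁ := by
    have := h.hκ; have := h.hr
    positivity
  have hδd : δ₁ ≤ d := (min_le_left _ _).trans (min_le_left _ _)
  have hδ1 : δ₁ ≤ 1 := (min_le_left _ _).trans (min_le_right _ _)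
  have hδκ : δ₁ ≤ κ := (min_le_right _ _).trans (min_le_left _ _)
  have hδr : δ₁ ≤ r := (min_le_right _ _).trans (min_le_right _ _)
  have hclose : ∀ τ w : ℂ, ‖τ‖ < δ₁ → ‖w‖ < δ₁ → ‖U τ w - U 0 0‖ ≤ k / 2 := by
    intro τ w hτ hw
    have := hdc (x := (τ, w)) (by
      rw [Prod.dist_eq, dist_zero_right, dist_zero_right]
      exact max_lt (by simpa using lt_of_lt_of_le hτ hδd) (by simpa using lt_of_lt_of_le hw hδd))
    rw [dist_eq_norm] at this
    exact this.le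
  have hbd : ∀ τ w : ℂ, ‖τ‖ < δ₁ → ‖w‖ < δ₁ → ‖U τ w‖ ≤ 2 * k := by
    intro τ w hτ hw
    have h1 := hclose τ w hτ hw
    calc ‖U τ w‖ = ‖(U τ w - U 0 0) + U 0 0‖ := by ring_nf
      _ ≤ ‖U τ w - U 0 0‖ + ‖U 0 0‖ := norm_add_le _ _
      _ ≤ 2 * k := by rw [← hk]; linarith
  -- Lipschitz in w
  have hL2 : ∀ τ a b : ℂ, ‖τ‖ < δ₁ → ‖a‖ < δ₁ / 4 → ‖b‖ < δ₁ / 4 →
      ‖U τ a - U τ b‖ ≤ (2 * (2 * k) + 1) / (δ₁ / 2) * ‖a - b‖ := by
    intro τ a b hτ ha hb
    refine lip_of_bound (f := fun w => U τ w) hδ₁0 (by positivity)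
      ((dU2 h (lt_of_lt_of_le hτ hδκ)).mono (ball_subset_ball hδr)) (fun z hz => hbd τ z hτ hz) ha hb
  -- Lipschitz in τ ^ 2
  have hL1 : ∀ w a b : ℂ, ‖w‖ < δ₁ → ‖a‖ < δ₁ / 2 → ‖b‖ < δ₁ / 2 →
      ‖U a w - U b w‖ ≤ (2 * (2 * k) + 1) / (δ₁ ^ 2 / 2) * ‖a ^ 2 - b ^ 2‖ := by
    intro w a b hw ha hb
    obtain ⟨e1, e2⟩ := even_factor (f := fun τ => U τ w) hδ₁0
      ((dU1 h (lt_of_lt_of_le hw hδr)).mono (ball_subset_ball hδκ))
      (fun z hz => h.Uev z w (lt_of_lt_of_le hz hδκ) (lt_of_lt_of_le hw hδr))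
    have ea : U (sr (a ^ 2)) w = U a w := by
      rcases e2 a with h1 | h1
      · exact h1
      · linarith
    have eb : U (sr (b ^ 2)) w = U b w := by
      rcases e2 b with h1 | h1
      · exact h1
      · linarith
    have hna : ‖a ^ 2‖ < δ₁ ^ 2 / 4 := by
      rw [norm_pow]; nlinarith [norm_nonneg a]
    have hnb : ‖b ^ 2‖ < δ₁ ^ 2 / 4 := by
      rw [norm_pow]; nlinarith [norm_nonneg b]
    have := lip_of_bound (f := fun y => U (sr y) w) (δ := δ₁ ^ 2) (M := 2 * k) (by positivity)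
      (by positivity) e1 (fun z hz => hbd _ w (by
        have := sr_mem hδ₁0 (y := z) (by simpa using hz)
        simpa using this) hw) hna hnb
    simp only [ea, eb] at this
    exact this
  set L1 : ℝ := (2 * (2 * k) + 1) / (δ₁ ^ 2 / 2) with hL1d
  set L2 : ℝ := (2 * (2 * k) + 1) / (δ₁ / 2) with hL2d
  have hL1p : 0 < L1 := by positivity
  have hL2p : 0 < L2 := by positivity
  refine ⟨4 * L1 + 2 * L2, δ₁ / 4, by positivity, by positivity, by linarith, by linarith, ?_⟩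
  intro τ w hτ hw
  refine ⟨hclose τ w (by linarith) (by linarith), ?_⟩
  have hτ' : ‖conj τ‖ < δ₁ / 4 := by rwa [RCLike.norm_conj]
  have hw' : ‖conj w‖ < δ₁ / 4 := by rwa [RCLike.norm_conj]
  have h1 := hL1 w τ (conj τ) (by linarith) (by linarith) (by linarith)
  have h2 := hL2 (conj τ) w (conj w) (by linarith) hw hw'
  have h3 := U_conj h (τ := τ) (w := w) (by linarith) (by linarith)
  have e1 : τ ^ 2 - (conj τ) ^ 2 = ((4 * (τ.re * τ.im) : ℝ) : ℂ) * Complex.I := by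
    apply Complex.ext
    · simp [pow_two]
    · simp [pow_two]; ring
  have e2 : w - conj w = ((2 * w.im : ℝ) : ℂ) * Complex.I := by
    apply Complex.ext
    · simp
    · simp; ring
  rw [e1, norm_mul, Complex.norm_I, mul_one, Complex.norm_real, Real.norm_eq_abs, abs_mul,
    abs_mul] at h1
  rw [e2, norm_mul, Complex.norm_I, mul_one, Complex.norm_real, Real.norm_eq_abs, abs_mul] at h2
  have e3 : U τ w - U (conj τ) (conj w) = ((2 * (U τ w).im : ℝ) : ℂ) * Complex.I := by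
    rw [h3]
    apply Complex.ext
    · simp
    · simp; ring
  have h4 : ‖U τ w - U (conj τ) (conj w)‖ = 2 * |(U τ w).im| := by
    rw [e3, norm_mul, Complex.norm_I, mul_one, Complex.norm_real, Real.norm_eq_abs, abs_mul]
    norm_num
  have h5 : ‖U τ w - U (conj τ) (conj w)‖ ≤ ‖U τ w - U (conj τ) w‖ +
      ‖U (conj τ) w - U (conj τ) (conj w)‖ := by
    calc ‖U τ w - U (conj τ) (conj w)‖ =
        ‖(U τ w - U (conj τ) w) + (U (conj τ) w - U (conj τ) (conj w))‖ := by ring_nf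
      _ ≤ _ := norm_add_le _ _
  rw [h4] at h5
  have a4 : |(4 : ℝ)| = 4 := by norm_num
  have a2 : |(2 : ℝ)| = 2 := by norm_num
  rw [a4] at h1
  rw [a2] at h2
  have p1 : 0 ≤ |τ.re| * |τ.im| := by positivity
  have p2 : 0 ≤ |w.im| := abs_nonneg _
  nlinarith [mul_nonneg hL1p.le p1, mul_nonneg hL2p.le p2, mul_nonneg hL1p.le p2,
    mul_nonneg hL2p.le p1]

/-- If `A * U` lies on the slit then `A` is almost real. -/
lemma slit_im {A u k : ℂ} (hk : k.im = 0) (hk0 : k ≠ 0) (hu : ‖u - k‖ ≤ ‖k‖ / 2) {p : ℝ}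
    (hp : 0 ≤ p) (h : A * u = p * k) :
    0 ≤ A.re ∧ |A.im| * (‖k‖ / 2) ≤ ‖A‖ * |u.im| := by
  have hkn : 0 < ‖k‖ := norm_pos_iff.mpr hk0
  have hkr : k = (k.re : ℂ) := Complex.ext rfl (by simp [hk])
  have hknorm : ‖k‖ = |k.re| := by
    conv_lhs => rw [hkr]
    rw [Complex.norm_real, Real.norm_eq_abs]
  have hun : ‖k‖ / 2 ≤ ‖u‖ := by
    have : ‖k‖ ≤ ‖u‖ + ‖u - k‖ := by
      calc ‖k‖ = ‖u - (u - k)‖ := by ring_nf
        _ ≤ ‖u‖ + ‖u - k‖ := norm_sub_le _ _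
    linarith
  have hu0 : 0 < ‖u‖ := by linarith
  -- re (u) * k.re ≥ k.re ^ 2 / 2
  have hre : k.re ^ 2 / 2 ≤ u.re * k.re := by
    have h1 : |(u - k).re| ≤ ‖k‖ / 2 := (Complex.abs_re_le_norm _).trans hu
    rw [Complex.sub_re, hknorm] at h1
    have h2 : |(u.re - k.re) * k.re| ≤ |k.re| / 2 * |k.re| := by
      rw [abs_mul]; exact mul_le_mul_of_nonneg_right h1 (abs_nonneg _)
    have h3 := neg_abs_le ((u.re - k.re) * k.re)
    have h4 : |k.re| * |k.re| = k.re ^ 2 := by rw [← abs_mul, abs_of_nonneg (mul_self_nonneg _)]; ring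
    nlinarith
  have key : A * ((‖u‖ ^ 2 : ℝ) : ℂ) = p * k * conj u := by
    rw [← h]
    have : u * conj u = ((‖u‖ ^ 2 : ℝ) : ℂ) := by
      rw [Complex.mul_conj, Complex.normSq_eq_norm_sq]
    rw [mul_assoc, this]
  have kre : A.re * ‖u‖ ^ 2 = p * (k.re * u.re) := by
    have := congrArg Complex.re key
    rw [Complex.re_mul_ofReal] at this
    rw [this, hkr]
    simp
    ring
  have kim : A.im * ‖u‖ ^ 2 = - (p * (k.re * u.im)) := by
    have := congrArg Complex.im key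
    rw [Complex.im_mul_ofReal] at this
    rw [this, hkr]
    simp
    ring
  have hnorm : ‖A‖ * ‖u‖ = p * |k.re| := by
    rw [← norm_mul, h, norm_mul, Complex.norm_real, Real.norm_eq_abs, abs_of_nonneg hp, hknorm]
  constructor
  · have : 0 ≤ A.re * ‖u‖ ^ 2 := by
      rw [kre]; apply mul_nonneg hp; nlinarith [sq_nonneg k.re]
    by_contra hneg
    push Not at hneg
    have : A.re * ‖u‖ ^ 2 < 0 := mul_neg_of_neg_of_pos hneg (by positivity)
    linarith
  · have h1 : |A.im| * ‖u‖ ^ 2 = ‖A‖ * ‖u‖ * |u.im| := by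
      have : |A.im * ‖u‖ ^ 2| = |(p * (k.re * u.im))| := by rw [kim, abs_neg]
      rw [abs_mul, abs_of_nonneg (by positivity : (0 : ℝ) ≤ ‖u‖ ^ 2), abs_mul, abs_mul,
        abs_of_nonneg hp] at this
      rw [this, hnorm]; ring
    have h2 : |A.im| * ‖u‖ = ‖A‖ * |u.im| := by
      have : (|A.im| * ‖u‖) * ‖u‖ = (‖A‖ * |u.im|) * ‖u‖ := by nlinarith
      exact mul_right_cancel₀ hu0.ne' this
    calc |A.im| * (‖k‖ / 2) ≤ |A.im| * ‖u‖ := mul_le_mul_of_nonneg_left hun (abs_nonneg _)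
      _ = _ := h2

end iso

end Vale.Agent.P097.H970
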