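import Vale.Agent.P097.LR.Defs
import Vale.Agent.P097.H407.Hol

/-! # P097 / H970 : abstract kink lemma at a point `w₀ ≠ 0` -/

set_option linter.all false

open scoped ContDiff Topology ComplexConjugate
open Filter Metric Set

namespace Vale.Agent.P097.H970

open Vale.Agent.P097 Vale.Agent.P097.LR

/-- The domain with a kink. -/
def DE (ε w₀ ρ d : ℝ) : Set (ℂ × ℂ) :=
  {p | ‖p.2 - w₀‖ < 2 * ρ ∧ ‖p.1‖ < 4 * ρ ∧
    p.1.im < -d - ε * (9 / 16 * p.2.im) + 7 / 16 * |p.2.im|}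

/-- The shifted point. -/
noncomputable def sh (ε w₀ ρ : ℝ) (σ w' w : ℂ) : ℂ :=
  σ - ((ε * (9 / 16) : ℝ) : ℂ) * (w - w') -
    ((7 / 32 / ρ : ℝ) : ℂ) * (Complex.I * ((w - w₀) ^ 2 - (w' - w₀) ^ 2))

lemma sh_im (ε w₀ ρ : ℝ) (σ w' w : ℂ) :
    (sh ε w₀ ρ σ w' w).im = σ.im - ε * (9 / 16) * (w.im - w'.im) -
      7 / 32 / ρ * (((w.re - w₀) ^ 2 - w.im ^ 2) - ((w'.re - w₀) ^ 2 - w'.im ^ 2)) := by
  unfold sh
  rw [Complex.sub_im, Complex.sub_im, Complex.im_ofReal_mul, Complex.im_ofReal_mul,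
    Complex.I_mul_im, Complex.sub_im, Complex.sub_re, pow_two, pow_two, Complex.mul_re,
    Complex.mul_re]
  simp only [Complex.sub_re, Complex.sub_im, Complex.ofReal_re, Complex.ofReal_im, sub_zero]
  ring

lemma sh_self (ε w₀ ρ : ℝ) (σ w' : ℂ) : sh ε w₀ ρ σ w' w' = σ := by
  unfold sh; ring

lemma sh_norm {ε w₀ ρ : ℝ} (hε : |ε| = 1) (hρ : 0 < ρ) {σ w' w : ℂ} (hσ : ‖σ‖ < ρ)
    (hw' : ‖w' - w₀‖ < ρ) (hw : ‖w - w₀‖ < 11 / 10 * ρ) : ‖sh ε w₀ ρ σ w' w‖ < 4 * ρ := by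
  unfold sh
  have h1 : ‖w - w'‖ < 3 * ρ := by
    calc ‖w - w'‖ = ‖(w - w₀) - (w' - w₀)‖ := by ring_nf
      _ ≤ ‖w - w₀‖ + ‖w' - w₀‖ := norm_sub_le _ _
      _ < 3 * ρ := by linarith
  have h2 : ‖(w - w₀) ^ 2 - (w' - w₀) ^ 2‖ ≤ 3 * ρ ^ 2 := by
    calc ‖(w - w₀) ^ 2 - (w' - w₀) ^ 2‖ ≤ ‖(w - w₀) ^ 2‖ + ‖(w' - w₀) ^ 2‖ := norm_sub_le _ _
      _ = ‖w - w₀‖ ^ 2 + ‖w' - w₀‖ ^ 2 := by rw [norm_pow, norm_pow]
      _ ≤ (11 / 10 * ρ) ^ 2 + ρ ^ 2 := by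
        gcongr
      _ ≤ 3 * ρ ^ 2 := by nlinarith [sq_nonneg ρ]
  have e1 : ‖((ε * (9 / 16) : ℝ) : ℂ) * (w - w')‖ ≤ 9 / 16 * (3 * ρ) := by
    rw [norm_mul, Complex.norm_real, Real.norm_eq_abs, abs_mul, hε, one_mul,
      abs_of_pos (by norm_num : (0 : ℝ) < 9 / 16)]
    linarith
  have e2 : ‖((7 / 32 / ρ : ℝ) : ℂ) * (Complex.I * ((w - w₀) ^ 2 - (w' - w₀) ^ 2))‖ ≤
      7 / 32 / ρ * (3 * ρ ^ 2) := by
    rw [norm_mul, norm_mul, Complex.norm_I, one_mul, Complex.norm_real, Real.norm_eq_abs,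
      abs_of_pos (by positivity)]
    exact mul_le_mul_of_nonneg_left h2 (by positivity)
  have e3 : 7 / 32 / ρ * (3 * ρ ^ 2) = 21 / 32 * ρ := by field_simp; ring
  calc _ ≤ ‖σ - ((ε * (9 / 16) : ℝ) : ℂ) * (w - w')‖ +
      ‖((7 / 32 / ρ : ℝ) : ℂ) * (Complex.I * ((w - w₀) ^ 2 - (w' - w₀) ^ 2))‖ := norm_sub_le _ _
    _ ≤ (‖σ‖ + ‖((ε * (9 / 16) : ℝ) : ℂ) * (w - w')‖) +
      ‖((7 / 32 / ρ : ℝ) : ℂ) * (Complex.I * ((w - w₀) ^ 2 - (w' - w₀) ^ 2))‖ := by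
        gcongr; exact norm_sub_le _ _
    _ < 4 * ρ := by linarith

/-- Real inequality: lower bound of the kink function on the closed disc and on the annulus. -/
lemma kink_low {ρ x y : ℝ} (hρ : 0 < ρ) (h : x ^ 2 + y ^ 2 ≤ ρ ^ 2) :
    0 ≤ 7 / 16 * |y| + 7 / 32 / ρ * (x ^ 2 - y ^ 2) := by
  have hy : |y| ≤ ρ := by
    apply abs_le_of_sq_le_sq _ hρ.le
    nlinarith [sq_nonneg x]
  have h1 : 7 / 32 / ρ * (x ^ 2 - y ^ 2) = 7 / 32 / ρ * x ^ 2 - 7 / 32 / ρ * y ^ 2 := by ring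
  have h2 : 7 / 32 / ρ * y ^ 2 ≤ 7 / 32 * |y| := by
    rw [← sq_abs, div_mul_eq_mul_div, div_le_iff₀ hρ]
    nlinarith [abs_nonneg y]
  have h3 : 0 ≤ 7 / 32 / ρ * x ^ 2 := by positivity
  have h4 := abs_nonneg y
  rw [h1]
  linarith

lemma kink_ann {ρ x y : ℝ} (hρ : 0 < ρ) (h1 : (9 / 10 * ρ) ^ 2 < x ^ 2 + y ^ 2)
    (h2 : x ^ 2 + y ^ 2 < (11 / 10 * ρ) ^ 2) :
    1 / 8 * ρ ≤ 7 / 16 * |y| + 7 / 32 / ρ * (x ^ 2 - y ^ 2) := by
  have hy : |y| ≤ 11 / 10 * ρ := by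
    apply abs_le_of_sq_le_sq _ (by positivity)
    nlinarith [sq_nonneg x]
  have h4 := abs_nonneg y
  have e1 : 7 / 32 / ρ * (x ^ 2 - y ^ 2) = (7 / 32 * (x ^ 2 - y ^ 2)) / ρ := by ring
  rw [e1, ← sub_le_iff_le_add', le_div_iff₀ hρ]
  have e2 : y ^ 2 = |y| ^ 2 := (sq_abs y).symm
  rw [e2] at h1 ⊢
  nlinarith [mul_nonneg h4 hρ.le, mul_nonneg h4 (sub_nonneg.mpr hy)]

lemma norm_sq_eq (w : ℂ) (w₀ : ℝ) : ‖w - w₀‖ ^ 2 = (w.re - w₀) ^ 2 + w.im ^ 2 := by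
  rw [← Complex.normSq_eq_norm_sq, Complex.normSq_apply]
  simp only [Complex.sub_re, Complex.sub_im, Complex.ofReal_re, Complex.ofReal_im, sub_zero]
  ring

lemma abs_im_sub (w : ℂ) (w₀ : ℝ) : |w.im| ≤ ‖w - w₀‖ := by
  have := Complex.abs_im_le_norm (w - w₀)
  rwa [Complex.sub_im, Complex.ofReal_im, sub_zero] at this

/-- Position of the shifted point when `w` is on the annulus. -/
lemma sh_mem_ann {ε w₀ ρ d : ℝ} (hε : |ε| = 1) (hρ : 0 < ρ) (hd : d ≤ ρ / 100) {σ w' w : ℂ}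
    (hσ : ‖σ‖ < 3 * (ρ / 40)) (hw' : ‖w' - w₀‖ < ρ / 40) (h1 : 9 / 10 * ρ < ‖w - w₀‖)
    (h2 : ‖w - w₀‖ < 11 / 10 * ρ) : (sh ε w₀ ρ σ w' w, w) ∈ DE ε w₀ ρ d := by
  refine ⟨by simp only []; linarith, ?_, ?_⟩
  · exact sh_norm hε hρ (by linarith) (by linarith) h2
  · simp only []
    rw [sh_im]
    have k1 := kink_ann (ρ := ρ) (x := w.re - w₀) (y := w.im) hρ
      (by rw [← norm_sq_eq]; exact pow_lt_pow_left₀ h1 (by positivity) two_ne_zero)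
      (by rw [← norm_sq_eq]; exact pow_lt_pow_left₀ h2 (norm_nonneg _) two_ne_zero)
    have k2 : σ.im < 3 * (ρ / 40) :=
      lt_of_le_of_lt ((le_abs_self _).trans (Complex.abs_im_le_norm _)) hσ
    have k3 : |ε * w'.im| ≤ ρ / 40 := by
      rw [abs_mul, hε, one_mul]; exact (abs_im_sub w' w₀).trans hw'.le
    have k4 := (abs_le.mp k3).2
    have k5 : 7 / 32 / ρ * ((w'.re - w₀) ^ 2 - w'.im ^ 2) ≤ 7 / 32 * (ρ / 1600) := by
      have : (w'.re - w₀) ^ 2 - w'.im ^ 2 ≤ (ρ / 40) ^ 2 := by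
        have h3 := norm_sq_eq w' w₀
        have h4 : ‖w' - w₀‖ ^ 2 ≤ (ρ / 40) ^ 2 := pow_le_pow_left₀ (norm_nonneg _) hw'.le 2
        nlinarith [sq_nonneg w'.im]
      calc 7 / 32 / ρ * ((w'.re - w₀) ^ 2 - w'.im ^ 2) ≤ 7 / 32 / ρ * (ρ / 40) ^ 2 :=
            mul_le_mul_of_nonneg_left this (by positivity)
        _ = 7 / 32 * (ρ / 1600) := by field_simp; ring
    nlinarith

/-- Position of the shifted point when `σ` is low. -/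
lemma sh_mem_low {ε w₀ ρ d : ℝ} (hε : |ε| = 1) (hρ : 0 < ρ) {σ w' w : ℂ}
    (hσ : ‖σ‖ < 3 * (ρ / 40)) (hw' : ‖w' - w₀‖ < ρ / 40) (hσi : σ.im < -d - ρ / 40)
    (h2 : ‖w - w₀‖ ≤ ρ) : (sh ε w₀ ρ σ w' w, w) ∈ DE ε w₀ ρ d := by
  refine ⟨by simp only []; linarith, ?_, ?_⟩
  · exact sh_norm hε hρ (by linarith) (by linarith) (by linarith)
  · simp only []
    rw [sh_im]
    have k1 := kink_low (ρ := ρ) (x := w.re - w₀) (y := w.im) hρ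
      (by rw [← norm_sq_eq]; exact pow_le_pow_left₀ (norm_nonneg _) h2 2)
    have k3 : |ε * w'.im| ≤ ρ / 40 := by
      rw [abs_mul, hε, one_mul]; exact (abs_im_sub w' w₀).trans hw'.le
    have k4 := (abs_le.mp k3).2
    have k5 : 7 / 32 / ρ * ((w'.re - w₀) ^ 2 - w'.im ^ 2) ≤ 7 / 32 * (ρ / 1600) := by
      have : (w'.re - w₀) ^ 2 - w'.im ^ 2 ≤ (ρ / 40) ^ 2 := by
        have h3 := norm_sq_eq w' w₀
        have h4 : ‖w' - w₀‖ ^ 2 ≤ (ρ / 40) ^ 2 := pow_le_pow_left₀ (norm_nonneg _) hw'.le 2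
        nlinarith [sq_nonneg w'.im]
      calc 7 / 32 / ρ * ((w'.re - w₀) ^ 2 - w'.im ^ 2) ≤ 7 / 32 / ρ * (ρ / 40) ^ 2 :=
            mul_le_mul_of_nonneg_left this (by positivity)
        _ = 7 / 32 * (ρ / 1600) := by field_simp; ring
    nlinarith

lemma isOpen_DE (ε w₀ ρ d : ℝ) : IsOpen (DE ε w₀ ρ d) := by
  have h1 : IsOpen {p : ℂ × ℂ | ‖p.2 - w₀‖ < 2 * ρ} := isOpen_lt (by fun_prop) (by fun_prop)
  have h2 : IsOpen {p : ℂ × ℂ | ‖p.1‖ < 4 * ρ} := isOpen_lt (by fun_prop) (by fun_prop)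
  have c1 : Continuous fun p : ℂ × ℂ => p.1.im := Complex.continuous_im.comp continuous_fst
  have c2 : Continuous fun p : ℂ × ℂ => p.2.im := Complex.continuous_im.comp continuous_snd
  have h3 : IsOpen {p : ℂ × ℂ | p.1.im < -d - ε * (9 / 16 * p.2.im) + 7 / 16 * |p.2.im|} :=
    isOpen_lt c1 (by fun_prop)
  exact h1.inter (h2.inter h3)

/-- Abstract kink lemma at `w₀`. -/
theorem kinkW {ε w₀ ρ d : ℝ} (hε : |ε| = 1) (hρ : 0 < ρ) (hd : d ≤ ρ / 100) (q : ℂ → ℂ → ℂ)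
    (hq : JD q (DE ε w₀ ρ d)) :
    ∃ F : ℂ → ℂ → ℂ, JD F {p | ‖p.1‖ < 3 * (ρ / 40) ∧ ‖p.2 - w₀‖ < ρ / 40} ∧
      ∀ σ w : ℂ, ‖σ‖ < 3 * (ρ / 40) → ‖w - w₀‖ < ρ / 40 → σ.im < -d - ρ / 40 → F σ w = q σ w := by
  unfold JD at hq
  set F : ℂ → ℂ → ℂ := fun σ w' => (2 * Real.pi * Complex.I : ℂ)⁻¹ •
    ∮ w in C(w₀, ρ), (w - w')⁻¹ • q (sh ε w₀ ρ σ w' w) w with hF
  refine ⟨F, ?_, ?_⟩
  · unfold JD
    simp only [hF]
    suffices hs : DifferentiableOn ℂ (fun p : ℂ × ℂ =>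
        ∮ w in C(w₀, ρ), (w - p.2)⁻¹ • q (sh ε w₀ ρ p.1 p.2 w) w)
        {p | ‖p.1‖ < 3 * (ρ / 40) ∧ ‖p.2 - w₀‖ < ρ / 40} from
      hs.const_smul (2 * Real.pi * Complex.I : ℂ)⁻¹
    refine Vale.Agent.P097.Hol.differentiableOn_circleIntegral (E := ℂ × ℂ) (F := ℂ)
      (G := fun P : (ℂ × ℂ) × ℂ => (P.2 - P.1.2)⁻¹ • q (sh ε w₀ ρ P.1.1 P.1.2 P.2) P.2)
      (U := {p | ‖p.1‖ < 3 * (ρ / 40) ∧ ‖p.2 - w₀‖ < ρ / 40})
      (W := {w | 9 / 10 * ρ < ‖w - w₀‖ ∧ ‖w - w₀‖ < 11 / 10 * ρ}) hρ.le ?_ ?_ ?_ ?_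
    · exact (isOpen_lt continuous_fst.norm continuous_const).inter
        (isOpen_lt (continuous_snd.sub continuous_const).norm continuous_const)
    · exact (isOpen_lt continuous_const (continuous_id.sub continuous_const).norm).inter
        (isOpen_lt (continuous_id.sub continuous_const).norm continuous_const)
    · intro w hw
      rw [mem_sphere, dist_eq_norm] at hw
      constructor <;> rw [hw] <;> linarith
    · intro P hP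
      obtain ⟨⟨hP1, hP2⟩, hP3, hP4⟩ := hP
      apply DifferentiableAt.differentiableWithinAt
      have hne : P.2 - P.1.2 ≠ 0 := by
        intro h0
        have h1 : P.2 - w₀ = P.1.2 - w₀ := by
          have := sub_eq_zero.mp h0
          rw [this]
        rw [h1] at hP3
        linarith
      have hmem := sh_mem_ann (d := d) hε hρ hd hP1 hP2 hP3 hP4
      have hqd : DifferentiableAt ℂ (fun p : ℂ × ℂ => q p.1 p.2)
          (sh ε w₀ ρ P.1.1 P.1.2 P.2, P.2) :=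
        hq.differentiableAt ((isOpen_DE _ _ _ _).mem_nhds hmem)
      have hin : DifferentiableAt ℂ
          (fun P : (ℂ × ℂ) × ℂ => (sh ε w₀ ρ P.1.1 P.1.2 P.2, P.2)) P := by
        unfold sh
        fun_prop
      have hcomp : DifferentiableAt ℂ
          (fun P : (ℂ × ℂ) × ℂ => q (sh ε w₀ ρ P.1.1 P.1.2 P.2) P.2) P :=
        DifferentiableAt.comp (g := fun p : ℂ × ℂ => q p.1 p.2) P hqd hin
      have hinv0 : DifferentiableAt ℂ (fun P : (ℂ × ℂ) × ℂ => P.2 - P.1.2) P := by fun_prop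
      have hinv : DifferentiableAt ℂ (fun P : (ℂ × ℂ) × ℂ => (P.2 - P.1.2)⁻¹) P :=
        hinv0.fun_inv hne
      exact hinv.smul hcomp
  · intro σ w' hσ hw' hσi
    have hball : w' ∈ ball (w₀ : ℂ) ρ := by
      rw [mem_ball, dist_eq_norm]; linarith
    have hd' : DifferentiableOn ℂ (fun w => q (sh ε w₀ ρ σ w' w) w) (closedBall (w₀ : ℂ) ρ) := by
      intro w hw
      rw [mem_closedBall, dist_eq_norm] at hw
      apply DifferentiableAt.differentiableWithinAt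
      have hmem := sh_mem_low (d := d) hε hρ hσ hw' hσi hw
      have hqd : DifferentiableAt ℂ (fun p : ℂ × ℂ => q p.1 p.2) (sh ε w₀ ρ σ w' w, w) :=
        hq.differentiableAt ((isOpen_DE _ _ _ _).mem_nhds hmem)
      have hin : DifferentiableAt ℂ (fun w : ℂ => (sh ε w₀ ρ σ w' w, w)) w := by
        unfold sh
        fun_prop
      exact DifferentiableAt.comp (g := fun p : ℂ × ℂ => q p.1 p.2)
        (f := fun w : ℂ => (sh ε w₀ ρ σ w' w, w)) w hqd hin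
    have hc := (hd'.diffContOnCl_ball (le_refl _)).two_pi_i_inv_smul_circleIntegral_sub_inv_smul
      hball
    simp only [hF]
    rw [hc, sh_self]

end Vale.Agent.P097.H970
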